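import Mathlib

namespace Vale.Agent.P346

open MvPolynomial

universe u

/-- `IMM_{n,n}`: the sum over index sequences `p 0 = 0, p 1, ..., p (n-1), p n = 0` of
`x^{(1)}_{p 0, p 1} ⋯ x^{(n)}_{p (n-1), p n}`; the variable `(l, i, j)` is entry `(i, j)` of matrix `l`. -/
noncomputable def IMM (K : Type u) [CommRing K] (n : ℕ) : MvPolynomial (Fin n × Fin n × Fin n) K :=
  ∑ p : Fin (n + 1) → Fin n,
    if (p 0).val = 0 ∧ (p (Fin.last n)).val = 0 then ∏ l : Fin n, X (l, p l.castSucc, p l.succ)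
    else 0

/-- A layered circuit of shape sum-product-sum-product-sum with shared gates. `L0` are the leaves,
`L1` the bottom sums, `L2` the lower products, `L3` the middle sums, `L4` the upper products, and
there is one output sum gate. A sum gate has an input set and coefficients, a product gate has a
multiplicity for each gate of the layer below (zero meaning no edge). -/
structure Circuit (K : Type u) (σ : Type) : Type (max u 1) where
  L0 : Type
  L1 : Type
  L2 : Type
  L3 : Type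
  L4 : Type
  [f0 : Fintype L0]
  [f1 : Fintype L1]
  [f2 : Fintype L2]
  [f3 : Fintype L3]
  [f4 : Fintype L4]
  leaf : L0 → σ ⊕ K
  in1 : L1 → Finset L0
  c1 : L1 → L0 → K
  m2 : L2 → L1 → ℕ
  in3 : L3 → Finset L2
  c3 : L3 → L2 → K
  m4 : L4 → L3 → ℕ
  in5 : Finset L4
  c5 : L4 → K

attribute [instance] Circuit.f0 Circuit.f1 Circuit.f2 Circuit.f3 Circuit.f4

namespace Circuit

variable {K : Type u} [CommRing K] {σ : Type} (Γ : Circuit K σ)

/-- polynomial at a leaf -/
noncomputable def v0 (i : Γ.L0) : MvPolynomial σ K := Sum.elim X C (Γ.leaf i)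
/-- polynomial at a bottom sum -/
noncomputable def v1 (g : Γ.L1) : MvPolynomial σ K := ∑ i ∈ Γ.in1 g, C (Γ.c1 g i) * Γ.v0 i
/-- polynomial at a lower product -/
noncomputable def v2 (g : Γ.L2) : MvPolynomial σ K := ∏ j, Γ.v1 j ^ Γ.m2 g j
/-- polynomial at a middle sum -/
noncomputable def v3 (g : Γ.L3) : MvPolynomial σ K := ∑ i ∈ Γ.in3 g, C (Γ.c3 g i) * Γ.v2 i
/-- polynomial at an upper product -/
noncomputable def v4 (g : Γ.L4) : MvPolynomial σ K := ∏ j, Γ.v3 j ^ Γ.m4 g j
/-- polynomial at the output -/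
noncomputable def out : MvPolynomial σ K := ∑ i ∈ Γ.in5, C (Γ.c5 i) * Γ.v4 i

/-- formal degree of a leaf -/
def d0 (i : Γ.L0) : ℕ := Sum.elim (fun _ => 1) (fun _ => 0) (Γ.leaf i)

/-- Syntactic homogeneity: formal degrees `d1`, `d3`, `d5` of the sum gates equal the formal degree
of each of their inputs, product gates adding degrees with multiplicity. -/
def Homogeneous : Prop :=
  ∃ (d1 : Γ.L1 → ℕ) (d3 : Γ.L3 → ℕ) (d5 : ℕ),
    (∀ g, ∀ i ∈ Γ.in1 g, Γ.d0 i = d1 g) ∧
    (∀ g, ∀ i ∈ Γ.in3 g, ∑ j, Γ.m2 i j * d1 j = d3 g) ∧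
    (∀ i ∈ Γ.in5, ∑ j, Γ.m4 i j * d3 j = d5)

/-- every sum gate has at least one input -/
def SumsNonempty : Prop :=
  (∀ g, (Γ.in1 g).Nonempty) ∧ (∀ g, (Γ.in3 g).Nonempty) ∧ Γ.in5.Nonempty

/-- number of vertices -/
def size : ℕ :=
  Fintype.card Γ.L0 + Fintype.card Γ.L1 + Fintype.card Γ.L2 + Fintype.card Γ.L3 +
    Fintype.card Γ.L4 + 1

end Circuit

end Vale.Agent.P346
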