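import Vale.Agent.P346.Mt
import Vale.Agent.P346.Defs

namespace Vale.Agent.P346

open Finset MvPolynomial

set_option linter.unusedSectionVars false

universe u

variable {V : Type} [Fintype V] [DecidableEq V] {K : Type u} [Field K]

def Prodable (f : MvPolynomial V K) (e T : ℕ) : Prop :=
  ∃ L : List (MvPolynomial V K × ℕ), (∀ x ∈ L, x.1.IsHomogeneous x.2 ∧ x.2 ≤ T) ∧
    (L.map Prod.fst).prod = f ∧ (L.map Prod.snd).sum = e

lemma Prodable.mul {f g : MvPolynomial V K} {e e' T : ℕ} (hf : Prodable f e T)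
    (hg : Prodable g e' T) : Prodable (f * g) (e + e') T := by
  obtain ⟨L, h1, rfl, rfl⟩ := hf
  obtain ⟨L', h1', rfl, rfl⟩ := hg
  refine ⟨L ++ L', fun x hx => ?_, by simp, by simp⟩
  rcases List.mem_append.mp hx with h | h
  exacts [h1 x h, h1' x h]

lemma prodable_one (T : ℕ) : Prodable (1 : MvPolynomial V K) 0 T := ⟨[], by simp, by simp, by simp⟩

lemma prodable_pow {f : MvPolynomial V K} {e T : ℕ} (m : ℕ) (hf : f.IsHomogeneous e)
    (he : m ≠ 0 → e ≤ T) : Prodable (f ^ m) (m * e) T := by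
  refine ⟨List.replicate m (f, e), fun x hx => ?_, by simp, by simp⟩
  obtain ⟨h1, rfl⟩ := List.mem_replicate.mp hx
  exact ⟨hf, he h1⟩

lemma prodable_prod {ι : Type} (s : Finset ι) (f : ι → MvPolynomial V K) (e : ι → ℕ) (T : ℕ)
    (h : ∀ i ∈ s, Prodable (f i) (e i) T) : Prodable (∏ i ∈ s, f i) (∑ i ∈ s, e i) T := by
  classical
  induction s using Finset.induction_on with
  | empty => simpa using prodable_one T
  | insert i s hi ih =>
    rw [Finset.prod_insert hi, Finset.sum_insert hi]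
    exact (h i (Finset.mem_insert_self _ _)).mul (ih fun j hj => h j (Finset.mem_insert_of_mem hj))

lemma extract {T : ℕ} (L : List (MvPolynomial V K × ℕ))
    (h : ∀ x ∈ L, x.1.IsHomogeneous x.2 ∧ x.2 ≤ T) : ∀ x : ℕ, 1 ≤ x → x ≤ (L.map Prod.snd).sum →
    ∃ (Q : MvPolynomial V K) (e : ℕ) (L' : List (MvPolynomial V K × ℕ)), Q.IsHomogeneous e ∧ x ≤ e ∧
      e + 1 ≤ x + T ∧ (∀ y ∈ L', y ∈ L) ∧ (L.map Prod.fst).prod = Q * (L'.map Prod.fst).prod ∧
      (L.map Prod.snd).sum = e + (L'.map Prod.snd).sum := by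
  induction L with
  | nil => intro x h1 h2; simp at h2; omega
  | cons y L ih =>
    intro x h1 h2
    have hy := h y List.mem_cons_self
    by_cases hx : x ≤ y.2
    · exact ⟨y.1, y.2, L, hy.1, hx, by omega, fun z hz => List.mem_cons_of_mem _ hz, by simp, by simp⟩
    · simp only [List.map_cons, List.sum_cons] at h2
      obtain ⟨Q, e, L', a1, a2, a3, a4, a5, a6⟩ :=
        ih (fun z hz => h z (List.mem_cons_of_mem _ hz)) (x - y.2) (by omega) (by omega)
      refine ⟨y.1 * Q, y.2 + e, L', hy.1.mul a1, by omega, by omega,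
        fun z hz => List.mem_cons_of_mem _ (a4 z hz), ?_, ?_⟩
      · simp only [List.map_cons, List.prod_cons, a5, mul_assoc]
      · simp only [List.map_cons, List.sum_cons, a6, add_assoc]

lemma group {T : ℕ} (hT : 1 ≤ T) (c : ℕ) : ∀ {f : MvPolynomial V K} {e : ℕ}, Prodable f e T →
    c * (2 * T - 1) ≤ e → ∃ (L : List (MvPolynomial V K)) (H : MvPolynomial V K), L.length = c ∧
      (∀ Q ∈ L, ∃ e', Q.IsHomogeneous e' ∧ T ≤ e' ∧ e' + 1 ≤ 2 * T) ∧ f = L.prod * H := by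
  induction c with
  | zero => intro f e _ _; exact ⟨[], f, rfl, by simp, by simp⟩
  | succ c ih =>
    rintro f e ⟨L, h1, rfl, rfl⟩ hc
    rw [Nat.succ_mul] at hc
    obtain ⟨Q, e, L', a1, a2, a3, a4, a5, a6⟩ := extract L h1 T hT (by omega)
    obtain ⟨L2, H, b1, b2, b3⟩ := ih ⟨L', fun x hx => h1 x (a4 x hx), rfl, rfl⟩ (by omega)
    refine ⟨Q :: L2, H, by simp [b1], fun Q' hQ' => ?_, ?_⟩
    · rcases List.mem_cons.mp hQ' with rfl | h
      · exact ⟨e, a1, a2, by omega⟩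
      · exact b2 Q' h
    · rw [a5, b3, List.prod_cons, mul_assoc]

namespace Circuit

variable (Γ : Circuit K V)

lemma v0_hom (i : Γ.L0) : (Γ.v0 i).IsHomogeneous (Γ.d0 i) := by
  unfold v0 d0
  cases Γ.leaf i with
  | inl x => exact isHomogeneous_X _ _
  | inr c => exact isHomogeneous_C _ _

lemma d0_le (i : Γ.L0) : Γ.d0 i ≤ 1 := by
  unfold d0
  cases Γ.leaf i <;> simp

lemma hom_sum {ι : Type} (s : Finset ι) (c : ι → K) (f : ι → MvPolynomial V K) (e : ℕ)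
    (h : ∀ i ∈ s, (f i).IsHomogeneous e) : (∑ i ∈ s, C (c i) * f i).IsHomogeneous e :=
  IsHomogeneous.sum _ _ _ fun i hi => (h i hi).C_mul _

lemma hom_prod {ι : Type} [Fintype ι] (m : ι → ℕ) (f : ι → MvPolynomial V K) (e : ι → ℕ)
    (h : ∀ i, (f i).IsHomogeneous (e i)) : (∏ i, f i ^ m i).IsHomogeneous (∑ i, m i * e i) :=
  IsHomogeneous.prod _ _ _ fun i _ => by rw [mul_comm]; exact (h i).pow _

lemma mu_out (P : Par V) (B : ℝ) (hB0 : 0 ≤ B) (t n : ℕ) (ht : 1 ≤ t) (htn : t * (2 * t - 1) ≤ n)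
    (hB : ∀ (L : List (MvPolynomial V K)) (H : MvPolynomial V K), L.length = t →
      (∀ Q ∈ L, ∃ e, Q.IsHomogeneous e ∧ (e = 1 ∨ (t ≤ e ∧ e ≤ 2 * t))) →
      (P.mu (L.prod * H) : ℝ) ≤ B)
    (hΓ : Γ.Homogeneous) (hn : Γ.out.IsHomogeneous n) : (P.mu Γ.out : ℝ) ≤ (Γ.size : ℝ) ^ 2 * B := by
  classical
  obtain ⟨d1, d3, d5, h1, h3, h5⟩ := hΓ
  have g1 : ∀ g, (Γ.v1 g).IsHomogeneous (d1 g) := fun g =>
    hom_sum _ _ _ _ fun i hi => h1 g i hi ▸ Γ.v0_hom i
  have g2 : ∀ g, (Γ.v2 g).IsHomogeneous (∑ j, Γ.m2 g j * d1 j) := fun g => hom_prod _ _ _ g1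
  have g3 : ∀ g, (Γ.v3 g).IsHomogeneous (d3 g) := fun g =>
    hom_sum _ _ _ _ fun i hi => h3 g i hi ▸ g2 i
  have g4 : ∀ g, (Γ.v4 g).IsHomogeneous (∑ j, Γ.m4 g j * d3 j) := fun g => hom_prod _ _ _ g3
  have g5 : Γ.out.IsHomogeneous d5 := hom_sum _ _ _ _ fun i hi => h5 i hi ▸ g4 i
  by_cases h0 : Γ.out = 0
  · rw [h0, P.mu_zero]; simp only [Nat.cast_zero]; positivity
  have hd : d5 = n := g5.inj_right hn h0
  have hs2 : (Fintype.card Γ.L2 : ℝ) + 1 ≤ Γ.size := by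
    have : Fintype.card Γ.L2 + 1 ≤ Γ.size := by unfold size; omega
    exact_mod_cast this
  have hs4 : (Γ.in5.card : ℝ) ≤ Γ.size := by
    have : Γ.in5.card ≤ Γ.size := by
      have := Finset.card_le_univ Γ.in5; unfold size; omega
    exact_mod_cast this
  have low : ∀ (i : Γ.L2) (H : MvPolynomial V K), t ≤ ∑ j, Γ.m2 i j * d1 j →
      (P.mu (Γ.v2 i * H) : ℝ) ≤ B := by
    intro i H hi
    by_cases hz : ∃ j, Γ.m2 i j ≠ 0 ∧ Γ.in1 j = ∅
    · obtain ⟨j, hj1, hj2⟩ := hz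
      have : Γ.v2 i = 0 := by
        refine Finset.prod_eq_zero (Finset.mem_univ j) ?_
        rw [v1, hj2, Finset.sum_empty, zero_pow hj1]
      rw [this, zero_mul, P.mu_zero]; simpa using hB0
    · push Not at hz
      have hp : Prodable (Γ.v2 i) (∑ j, Γ.m2 i j * d1 j) 1 := by
        refine prodable_prod _ _ _ _ fun j _ => prodable_pow _ (g1 j) fun hj => ?_
        obtain ⟨x, hx⟩ := hz j hj
        rw [← h1 j x hx]; exact Γ.d0_le x
      obtain ⟨L, H', a1, a2, a3⟩ := group le_rfl t hp (by omega)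
      rw [a3, mul_assoc]
      refine hB L _ a1 fun Q hQ => ?_
      obtain ⟨e, b1, b2, b3⟩ := a2 Q hQ
      exact ⟨e, b1, Or.inl (by omega)⟩
  have top : ∀ g ∈ Γ.in5, (P.mu (C (Γ.c5 g) * Γ.v4 g) : ℝ) ≤ Γ.size * B := by
    intro g hg
    refine le_trans (by exact_mod_cast P.mu_C_mul _ _) (?_ : (P.mu (Γ.v4 g) : ℝ) ≤ _)
    by_cases hc : ∃ j, Γ.m4 g j ≠ 0 ∧ t < d3 j
    · obtain ⟨j, hj1, hj2⟩ := hc
      obtain ⟨H, hH⟩ : Γ.v3 j ∣ Γ.v4 g :=
        (dvd_pow_self _ hj1).trans (Finset.dvd_prod_of_mem (fun j => Γ.v3 j ^ Γ.m4 g j)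
          (Finset.mem_univ j))
      rw [hH, v3, Finset.sum_mul]
      refine (P.mu_sum _ _ B fun i hi => ?_).trans ?_
      · rw [mul_assoc]
        refine le_trans (by exact_mod_cast P.mu_C_mul _ _) (low i H ?_)
        rw [h3 j i hi]; exact hj2.le
      · have : ((Γ.in3 j).card : ℝ) ≤ Fintype.card Γ.L2 := by
          exact_mod_cast Finset.card_le_univ _
        exact mul_le_mul_of_nonneg_right (by linarith) hB0
    · push Not at hc
      have hp : Prodable (Γ.v4 g) (∑ j, Γ.m4 g j * d3 j) t :=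
        prodable_prod _ _ _ _ fun j _ => prodable_pow _ (g3 j) (hc j)
      rw [h5 g hg, hd] at hp
      obtain ⟨L, H', a1, a2, a3⟩ := group ht t hp htn
      rw [a3]
      refine (hB L _ a1 fun Q hQ => ?_).trans ?_
      · obtain ⟨e, b1, b2, b3⟩ := a2 Q hQ
        exact ⟨e, b1, Or.inr ⟨b2, by omega⟩⟩
      · have : (0:ℝ) ≤ Fintype.card Γ.L2 := by positivity
        exact le_mul_of_one_le_left hB0 (by linarith)
  refine (P.mu_sum _ _ _ top).trans ?_
  rw [sq, mul_assoc]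
  gcongr

end Circuit

end Vale.Agent.P346
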