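import Vale.Agent.P346.Mt

namespace Vale.Agent.P346

open Finset

set_option linter.unusedSectionVars false

lemma choose_step_out (M j : ℕ) (hM : 1 ≤ M) (hj : j ≤ M) :
    ((M - 1).choose j : ℝ) * M = M.choose j * (M - j : ℝ) := by
  obtain ⟨M, rfl⟩ : ∃ M', M = M' + 1 := ⟨M - 1, by omega⟩
  have := Nat.choose_mul_succ_eq M j
  rw [Nat.add_sub_cancel, ← Nat.cast_sub hj]; exact_mod_cast this

lemma choose_step_in (M j : ℕ) (hM : 1 ≤ M) (hj : 1 ≤ j) :
    ((M - 1).choose (j - 1) : ℝ) * M = M.choose j * j := by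
  obtain ⟨M, rfl⟩ : ∃ M', M = M' + 1 := ⟨M - 1, by omega⟩
  obtain ⟨j, rfl⟩ : ∃ M', j = M' + 1 := ⟨j - 1, by omega⟩
  have := Nat.add_one_mul_choose_eq M j
  rw [Nat.add_sub_cancel, Nat.add_sub_cancel, mul_comm]; exact_mod_cast this

lemma choose_up (N a L : ℕ) (α β : ℝ) (hα0 : 0 ≤ α) (hβ0 : 0 ≤ β) (h1 : L ≤ a) (h2 : a + L ≤ N)
    (hα : (a : ℝ) ≤ α * (N - L)) (hβ : (N - a : ℝ) ≤ β * (N - L)) (i o : ℕ) (h : i + o ≤ L) :
    ((N - (i + o)).choose (a - i) : ℝ) ≤ N.choose a * α ^ i * β ^ o := by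
  induction o with
  | zero =>
    simp only [add_zero, pow_zero, mul_one] at *
    induction i with
    | zero => simp
    | succ i ih =>
      have ih := ih (by omega)
      have hs := choose_step_in (N - i) (a - i) (by omega) (by omega)
      have hM : (N - L : ℝ) ≤ ((N - i : ℕ) : ℝ) := by
        rw [Nat.cast_sub (by omega)]; have : (i:ℝ) ≤ L := by exact_mod_cast (by omega : i ≤ L)
        linarith
      have hM0 : (0:ℝ) < ((N - i : ℕ) : ℝ) := by exact_mod_cast (by omega : 0 < N - i)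
      have hj : ((a - i : ℕ) : ℝ) ≤ α * ((N - i : ℕ) : ℝ) := by
        have : ((a - i : ℕ) : ℝ) ≤ a := by exact_mod_cast Nat.sub_le a i
        nlinarith
      rw [Nat.sub_sub, Nat.sub_sub] at hs
      have : ((N - (i + 1)).choose (a - (i + 1)) : ℝ) ≤ (N - i).choose (a - i) * α := by
        refine le_of_mul_le_mul_right ?_ hM0
        rw [hs, mul_assoc]; gcongr
      rw [pow_succ, ← mul_assoc]
      exact this.trans (by gcongr)
  | succ o ih =>
    have ih := ih (by omega)
    have hs := choose_step_out (N - (i + o)) (a - i) (by omega) (by omega)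
    have hM : (N - L : ℝ) ≤ ((N - (i + o) : ℕ) : ℝ) := by
      rw [Nat.cast_sub (by omega)]
      have : ((i + o : ℕ) : ℝ) ≤ L := by exact_mod_cast (by omega : i + o ≤ L)
      linarith
    have hM0 : (0:ℝ) < ((N - (i + o) : ℕ) : ℝ) := by exact_mod_cast (by omega : 0 < N - (i + o))
    have hj : ((N - (i + o) : ℕ) : ℝ) - ((a - i : ℕ) : ℝ) ≤ β * ((N - (i + o) : ℕ) : ℝ) := by
      have : ((N - (i + o) : ℕ) : ℝ) - ((a - i : ℕ) : ℝ) ≤ N - a := by
        rw [Nat.cast_sub (by omega), Nat.cast_sub (by omega)]; push_cast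
        have : (0:ℝ) ≤ o := by positivity
        linarith
      nlinarith
    rw [Nat.sub_sub] at hs
    have : ((N - (i + (o + 1))).choose (a - i) : ℝ) ≤ (N - (i + o)).choose (a - i) * β := by
      refine le_of_mul_le_mul_right ?_ hM0
      rw [← add_assoc, hs, mul_assoc]; gcongr
    rw [pow_succ, ← mul_assoc]
    exact this.trans (by gcongr)

lemma choose_low (N a L : ℕ) (γ : ℝ) (hγ0 : 0 ≤ γ) (h2 : a + L ≤ N)
    (hγ : γ * N ≤ (N - a - L : ℝ)) (o : ℕ) (h : o ≤ L) :
    (N.choose a : ℝ) * γ ^ o ≤ (N - o).choose a := by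
  induction o with
  | zero => simp
  | succ o ih =>
    have ih := ih (by omega)
    have hs := choose_step_out (N - o) a (by omega) (by omega)
    have hM0 : (0:ℝ) < ((N - o : ℕ) : ℝ) := by exact_mod_cast (by omega : 0 < N - o)
    have hj : γ * ((N - o : ℕ) : ℝ) ≤ ((N - o : ℕ) : ℝ) - a := by
      rw [Nat.cast_sub (by omega)]
      have : (o:ℝ) ≤ L := by exact_mod_cast (by omega : o ≤ L)
      have : (0:ℝ) ≤ γ * o := by positivity
      nlinarith
    rw [Nat.sub_sub] at hs
    have : ((N - o).choose a : ℝ) * γ ≤ (N - (o + 1)).choose a := by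
      refine le_of_mul_le_mul_right ?_ hM0
      rw [hs, mul_assoc]; gcongr
    rw [pow_succ, ← mul_assoc]
    exact le_trans (by gcongr) this

lemma choose_shift (N a : ℕ) (r : ℝ) (hr0 : 0 ≤ r) (hr : (N - a : ℝ) ≤ r * a) (p : ℕ) :
    (N.choose (a + p) : ℝ) ≤ N.choose a * r ^ p := by
  induction p with
  | zero => simp
  | succ p ih =>
    have hs : (N.choose (a + p + 1) : ℝ) * ((a + p + 1 : ℕ) : ℝ) =
        N.choose (a + p) * ((N - (a + p) : ℕ) : ℝ) := by
      exact_mod_cast Nat.choose_succ_right_eq N (a + p)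
    have hj : ((N - (a + p) : ℕ) : ℝ) ≤ r * ((a + p + 1 : ℕ) : ℝ) := by
      have h3 : r * a ≤ r * ((a + p + 1 : ℕ) : ℝ) := by
        gcongr; exact_mod_cast (by omega : a ≤ a + p + 1)
      rcases le_total (a + p) N with h | h
      · rw [Nat.cast_sub h]; push_cast at *
        have : (0:ℝ) ≤ p := by positivity
        linarith
      · rw [Nat.sub_eq_zero_of_le h]; simp only [Nat.cast_zero]; positivity
    have : (N.choose (a + (p + 1)) : ℝ) ≤ N.choose (a + p) * r := by
      refine le_of_mul_le_mul_right ?_ (by positivity : (0:ℝ) < ((a + p + 1 : ℕ) : ℝ))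
      rw [← add_assoc, hs, mul_assoc]; gcongr
    rw [pow_succ, ← mul_assoc]
    exact this.trans (by gcongr)

variable {V : Type} [Fintype V] [DecidableEq V]

namespace Par

variable (P : Par V)

lemma cnt_le (a b : ℕ) (G I : Finset V) :
    ((P.lay a b).filter fun σ => σ ∩ G = I).card ≤
      ((P.Y \ G).card).choose (a - (I ∩ P.Y).card) * ((P.Yᶜ \ G).card).choose (b - (I \ P.Y).card) := by
  rw [← Finset.card_powersetCard, ← Finset.card_powersetCard, ← Finset.card_product]
  refine Finset.card_le_card_of_injOn (fun σ => ((σ ∩ P.Y) \ G, (σ \ P.Y) \ G)) ?_ ?_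
  · intro σ hσ
    simp only [lay, Finset.coe_filter, Finset.mem_filter, Finset.mem_univ, true_and,
      Set.mem_ofPred_eq] at hσ
    obtain ⟨⟨h1, h2⟩, h3⟩ := hσ
    simp only [Finset.coe_product, Set.mem_prod, Finset.mem_coe, Finset.mem_powersetCard]
    refine ⟨⟨fun v => by simp only [Finset.mem_sdiff, Finset.mem_inter]; tauto, ?_⟩,
      ⟨fun v => by simp only [Finset.mem_sdiff, Finset.mem_compl]; tauto, ?_⟩⟩
    · have := Finset.card_sdiff_add_card_inter (σ ∩ P.Y) G
      have e : σ ∩ P.Y ∩ G = I ∩ P.Y := by rw [← h3]; ext v; simp; tauto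
      rw [e] at this; unfold cy at h1; omega
    · have := Finset.card_sdiff_add_card_inter (σ \ P.Y) G
      have e : (σ \ P.Y) ∩ G = I \ P.Y := by rw [← h3]; ext v; simp; tauto
      rw [e] at this; unfold cz at h2; omega
  · intro σ hσ σ' hσ' h
    simp only [Finset.coe_filter, Set.mem_ofPred_eq] at hσ hσ'
    have h1 := congrArg Prod.fst h
    have h2 := congrArg Prod.snd h
    have h3 := hσ.2.trans hσ'.2.symm
    ext v
    have a1 := Finset.ext_iff.mp h1 v
    have a2 := Finset.ext_iff.mp h2 v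
    have a3 := Finset.ext_iff.mp h3 v
    simp only [Finset.mem_sdiff, Finset.mem_inter] at a1 a2 a3
    tauto

lemma cnt_ge (a b : ℕ) (G : Finset V) :
    ((P.Y \ G).card).choose a * ((P.Yᶜ \ G).card).choose b ≤
      ((P.lay a b).filter fun σ => Disjoint σ G).card := by
  rw [← Finset.card_powersetCard, ← Finset.card_powersetCard, ← Finset.card_product]
  have key : ∀ x ∈ (P.Y \ G).powersetCard a ×ˢ (P.Yᶜ \ G).powersetCard b,
      (x.1 ∪ x.2) ∩ P.Y = x.1 ∧ (x.1 ∪ x.2) \ P.Y = x.2 := by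
    intro x hx
    simp only [Finset.mem_product, Finset.mem_powersetCard] at hx
    constructor <;> ext v <;> have a1 := @hx.1.1 v <;> have a2 := @hx.2.1 v <;>
      simp only [Finset.mem_sdiff, Finset.mem_inter, Finset.mem_union, Finset.mem_compl] at * <;> tauto
  refine Finset.card_le_card_of_injOn (fun x => x.1 ∪ x.2) ?_ ?_
  · intro x hx
    have hx' := Finset.mem_coe.mp hx
    obtain ⟨k1, k2⟩ := key x hx'
    simp only [Finset.mem_product, Finset.mem_powersetCard] at hx'
    refine Finset.mem_coe.mpr (Finset.mem_filter.mpr ⟨Finset.mem_filter.mpr ⟨Finset.mem_univ _,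
      by unfold cy; simp only [k1]; exact hx'.1.2, by unfold cz; simp only [k2]; exact hx'.2.2⟩, ?_⟩)
    show Disjoint (x.1 ∪ x.2) G
    rw [Finset.disjoint_union_left]
    exact ⟨Finset.disjoint_of_subset_left hx'.1.1 Finset.sdiff_disjoint,
      Finset.disjoint_of_subset_left hx'.2.1 Finset.sdiff_disjoint⟩
  · intro x hx y hy h
    obtain ⟨k1, k2⟩ := key x hx
    obtain ⟨l1, l2⟩ := key y hy
    simp only at h
    exact Prod.ext (by rw [← k1, ← l1, h]) (by rw [← k2, ← l2, h])

noncomputable def D : ℝ := (P.Y.card.choose P.a : ℝ) * (P.Yᶜ.card.choose P.b : ℝ)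

lemma card_mid (h1 : (P.Y.card - P.a : ℝ) ≤ Real.exp P.R * P.a)
    (h2 : (P.Yᶜ.card - P.b : ℝ) ≤ Real.exp (-P.S) * P.b) (x y : ℝ) (hxy : x ≤ y) :
    ((P.mid x).card : ℝ) ≤ (P.k + 1) * (P.k' + 1) * P.D * Real.exp y := by
  have hD : 0 ≤ P.D := by unfold D; positivity
  have hl : ∀ p q : ℕ, ((P.lay (P.a + p) (P.b + q)).card : ℝ) ≤ P.D * Real.exp (p * P.R - q * P.S) := by
    intro p q
    have := P.cnt_le (P.a + p) (P.b + q) ∅ ∅
    simp only [Finset.inter_empty, Finset.filter_true, Finset.sdiff_empty, Finset.empty_inter,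
      Finset.card_empty, Nat.sub_zero, Finset.empty_sdiff] at this
    have a1 := choose_shift _ _ _ (Real.exp_pos _).le h1 p
    have a2 := choose_shift _ _ _ (Real.exp_pos _).le h2 q
    calc _ ≤ (P.Y.card.choose (P.a + p) : ℝ) * (P.Yᶜ.card.choose (P.b + q) : ℝ) := by
          exact_mod_cast this
      _ ≤ (P.Y.card.choose P.a * Real.exp P.R ^ p) * (P.Yᶜ.card.choose P.b * Real.exp (-P.S) ^ q) := by
          gcongr
      _ = _ := by
          rw [← Real.exp_nat_mul, ← Real.exp_nat_mul, sub_eq_add_neg, Real.exp_add, D, mul_neg]; ring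
  unfold mid
  set s := (range (P.k + 1) ×ˢ range (P.k' + 1)).filter fun pq => pq.1 * P.R - pq.2 * P.S ≤ x
  have hs : (s.card : ℝ) ≤ (P.k + 1) * (P.k' + 1) := by
    have := Finset.card_filter_le (range (P.k + 1) ×ˢ range (P.k' + 1))
      fun pq => pq.1 * P.R - pq.2 * P.S ≤ x
    rw [Finset.card_product, Finset.card_range, Finset.card_range] at this
    exact_mod_cast this
  calc _ ≤ ((∑ pq ∈ s, (P.lay (P.a + pq.1) (P.b + pq.2)).card : ℕ) : ℝ) := by
        exact_mod_cast Finset.card_biUnion_le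
    _ ≤ ∑ _pq ∈ s, P.D * Real.exp y := by
        push_cast
        refine Finset.sum_le_sum fun pq hpq => (hl _ _).trans ?_
        gcongr; exact (Finset.mem_filter.mp hpq).2.trans hxy
    _ = s.card * (P.D * Real.exp y) := by simp
    _ ≤ _ := by rw [mul_assoc _ P.D]; gcongr

lemma cnt_real (α β α' β' : ℝ) (hα0 : 0 ≤ α) (hβ0 : 0 ≤ β) (hα0' : 0 ≤ α') (hβ0' : 0 ≤ β')
    (L L' : ℕ) (h1 : L ≤ P.a) (h2 : P.a + L ≤ P.Y.card) (h1' : L' ≤ P.b) (h2' : P.b + L' ≤ P.Yᶜ.card)
    (hα : (P.a : ℝ) ≤ α * (P.Y.card - L)) (hβ : (P.Y.card - P.a : ℝ) ≤ β * (P.Y.card - L))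
    (hα' : (P.b : ℝ) ≤ α' * (P.Yᶜ.card - L')) (hβ' : (P.Yᶜ.card - P.b : ℝ) ≤ β' * (P.Yᶜ.card - L'))
    (G I : Finset V) (hI : I ⊆ G) (hG : (G ∩ P.Y).card ≤ L) (hG' : (G \ P.Y).card ≤ L') :
    (((P.lay P.a P.b).filter fun σ => σ ∩ G = I).card : ℝ) ≤
      P.D * ∏ v ∈ G, (if v ∈ I then (if v ∈ P.Y then α else α') else (if v ∈ P.Y then β else β')) := by
  have e1 : (P.Y \ G).card = P.Y.card - ((I ∩ P.Y).card + ((G \ I) ∩ P.Y).card) := by
    have := Finset.card_sdiff_add_card_inter P.Y G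
    have e : P.Y ∩ G = (I ∩ P.Y) ∪ ((G \ I) ∩ P.Y) := by
      ext v; have := @hI v; simp; tauto
    rw [e, Finset.card_union_of_disjoint (by rw [Finset.disjoint_left]; simp; tauto)] at this
    omega
  have e2 : (P.Yᶜ \ G).card = P.Yᶜ.card - ((I \ P.Y).card + ((G \ I) \ P.Y).card) := by
    have := Finset.card_sdiff_add_card_inter P.Yᶜ G
    have e : P.Yᶜ ∩ G = (I \ P.Y) ∪ ((G \ I) \ P.Y) := by
      ext v; have := @hI v; simp; tauto
    rw [e, Finset.card_union_of_disjoint (by rw [Finset.disjoint_left]; simp; tauto)] at this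
    omega
  have f1 : (I ∩ P.Y).card + ((G \ I) ∩ P.Y).card ≤ L := by
    rw [← Finset.card_union_of_disjoint (by rw [Finset.disjoint_left]; simp; tauto)]
    refine le_trans (Finset.card_le_card ?_) hG
    intro v; have := @hI v; simp; tauto
  have f2 : (I \ P.Y).card + ((G \ I) \ P.Y).card ≤ L' := by
    rw [← Finset.card_union_of_disjoint (by rw [Finset.disjoint_left]; simp; tauto)]
    refine le_trans (Finset.card_le_card ?_) hG'
    intro v; have := @hI v; simp; tauto
  have a1 := choose_up _ _ _ α β hα0 hβ0 h1 h2 hα hβ _ _ f1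
  have a2 := choose_up _ _ _ α' β' hα0' hβ0' h1' h2' hα' hβ' _ _ f2
  have c := P.cnt_le P.a P.b G I
  rw [e1, e2] at c
  have pr : ∏ v ∈ G, (if v ∈ I then (if v ∈ P.Y then α else α') else (if v ∈ P.Y then β else β')) =
      α ^ (I ∩ P.Y).card * α' ^ (I \ P.Y).card *
        (β ^ ((G \ I) ∩ P.Y).card * β' ^ ((G \ I) \ P.Y).card) := by
    rw [Finset.prod_ite, Finset.prod_ite, Finset.prod_ite]
    simp only [Finset.prod_const]
    congr 3 <;> congr 1 <;> ext v <;> have := @hI v <;> simp <;> tauto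
  rw [pr]
  calc _ ≤ ((P.Y.card - ((I ∩ P.Y).card + ((G \ I) ∩ P.Y).card)).choose (P.a - (I ∩ P.Y).card) : ℝ) *
        ((P.Yᶜ.card - ((I \ P.Y).card + ((G \ I) \ P.Y).card)).choose (P.b - (I \ P.Y).card) : ℝ) := by
        exact_mod_cast c
    _ ≤ _ := mul_le_mul a1 a2 (by positivity) (by positivity)
    _ = _ := by unfold D; ring

end Par

/-- transfer-matrix bound -/
lemma transfer {U : Type} [Fintype U] [DecidableEq U] (W : ℕ → U → U → ℝ) (ψ : ℕ → U → ℝ) (lam : ℝ)
    (hW : ∀ j u v, 0 ≤ W j u v) (hlam : 0 ≤ lam)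
    (h : ∀ j u, ∑ v, W j u v * ψ (j + 1) v ≤ lam * ψ j u) (o : U) (d : ℕ) :
    ∑ u : Fin (d + 1) → U, (if u 0 = o then 1 else 0) *
      (∏ l : Fin d, W l (u l.castSucc) (u l.succ)) * ψ d (u (Fin.last d)) ≤ lam ^ d * ψ 0 o := by
  induction d with
  | zero =>
    rw [← (Equiv.funUnique (Fin 1) U).symm.sum_comp]
    simp
  | succ d ih =>
    rw [← (Fin.snocEquiv (fun _ : Fin (d + 2) => U)).sum_comp, Fintype.sum_prod_type, Finset.sum_comm]
    calc _ = ∑ u : Fin (d + 1) → U, (if u 0 = o then 1 else 0) *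
          (∏ l : Fin d, W l (u l.castSucc) (u l.succ)) *
            ∑ v, W d (u (Fin.last d)) v * ψ (d + 1) v := by
          refine Finset.sum_congr rfl fun u _ => ?_
          rw [Finset.mul_sum]
          refine Finset.sum_congr rfl fun v _ => ?_
          rw [Fin.prod_univ_castSucc]
          have e0 : (Fin.snocEquiv (fun _ : Fin (d + 2) => U)) (v, u) 0 = u 0 := by
            simp only [Fin.snocEquiv, Equiv.coe_fn_mk]
            exact Fin.snoc_castSucc (α := fun _ => U) v u 0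
          have e1 : ∀ l : Fin (d + 1), (Fin.snocEquiv (fun _ : Fin (d + 2) => U)) (v, u) l.castSucc = u l :=
            fun l => Fin.snoc_castSucc (α := fun _ => U) v u l
          have e2 : (Fin.snocEquiv (fun _ : Fin (d + 2) => U)) (v, u) (Fin.last (d + 1)) = v :=
            Fin.snoc_last (α := fun _ => U) v u
          simp only [e0, Fin.succ_castSucc, e1, Fin.succ_last, e2, Fin.val_castSucc, Fin.val_last]
          ring
      _ ≤ ∑ u : Fin (d + 1) → U, (if u 0 = o then 1 else 0) *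
          (∏ l : Fin d, W l (u l.castSucc) (u l.succ)) * (lam * ψ d (u (Fin.last d))) := by
          refine Finset.sum_le_sum fun u _ => mul_le_mul_of_nonneg_left (h _ _) ?_
          refine mul_nonneg (by split_ifs <;> norm_num) (Finset.prod_nonneg fun _ _ => hW _ _ _)
      _ = lam * ∑ u : Fin (d + 1) → U, (if u 0 = o then 1 else 0) *
          (∏ l : Fin d, W l (u l.castSucc) (u l.succ)) * ψ d (u (Fin.last d)) := by
          rw [Finset.mul_sum]; refine Finset.sum_congr rfl fun u _ => by ring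
      _ ≤ lam * (lam ^ d * ψ 0 o) := by gcongr
      _ = _ := by ring

end Vale.Agent.P346
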