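import Mathlib

namespace Vale.Agent.P346

open Matrix Finset

section
variable {K : Type*} [Field K] {m n o : Type} [Fintype m] [Fintype n] [Fintype o]

lemma rank_add_le' (A B : Matrix m n K) : (A + B).rank ≤ A.rank + B.rank := by
  unfold Matrix.rank
  rw [Matrix.mulVecLin_add]
  refine le_trans (Submodule.finrank_mono ?_)
    (Submodule.finrank_add_le_finrank_add_finrank _ _)
  rintro _ ⟨x, rfl⟩
  exact Submodule.add_mem_sup ⟨x, rfl⟩ ⟨x, rfl⟩

lemma rank_smul_le' (c : K) (A : Matrix m n K) : (c • A).rank ≤ A.rank := by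
  unfold Matrix.rank
  refine Submodule.finrank_mono ?_
  rintro _ ⟨x, rfl⟩
  exact ⟨c • x, by simp [Matrix.mulVec_smul, Matrix.smul_mulVec]⟩

lemma rank_bottleneck [DecidableEq n] (A : Matrix m n K) (B : Matrix n o K) (I : Finset n)
    (h : ∀ ρ ∉ I, ∀ τ σ, A τ ρ * B ρ σ = 0) : (A * B).rank ≤ I.card := by
  classical
  have e : A * B = (A.submatrix id (fun i : I => (i : n))) * (B.submatrix (fun i : I => (i : n)) id) := by
    ext τ σ
    simp only [Matrix.mul_apply, Matrix.submatrix_apply, id]
    rw [Finset.sum_coe_sort I (fun ρ => A τ ρ * B ρ σ)]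
    symm
    exact Finset.sum_subset (Finset.subset_univ _) fun ρ _ hρ => h ρ hρ τ σ
  rw [e]
  refine (Matrix.rank_mul_le_left _ _).trans ((Matrix.rank_le_card_width _).trans ?_)
  simp

lemma rank_int_le [CharZero K] (A : Matrix m n ℤ) :
    (A.map (Int.cast : ℤ → ℝ)).rank ≤ (A.map (Int.cast : ℤ → K)).rank := by
  classical
  rw [Matrix.rank_eq_finrank_span_cols, Matrix.rank_eq_finrank_span_cols]
  obtain ⟨κ, a, ha, hsp, hli⟩ := exists_linearIndependent' ℝ (A.map (Int.cast : ℤ → ℝ)).col
  have : Finite κ := Finite.of_injective a ha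
  have := Fintype.ofFinite κ
  rw [← hsp, finrank_span_eq_card hli]
  have h1 : LinearIndependent ℤ (fun i : κ => fun r => A r (a i)) := by
    rw [← linearIndependent_algebraMap_comp_iff (S := ℝ)]; exact hli
  have h2 : LinearIndependent K ((A.map (Int.cast : ℤ → K)).col ∘ a) := by
    have := (linearIndependent_algebraMap_comp_iff (S := K)).mpr h1; exact this
  rw [← finrank_span_eq_card h2]
  refine Submodule.finrank_mono (Submodule.span_mono ?_)
  rintro _ ⟨i, rfl⟩; exact ⟨a i, rfl⟩

lemma trace_sq_le [DecidableEq n] (F : Matrix m n ℝ) :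
    (Fᵀ * F).trace ^ 2 ≤ F.rank * ((Fᵀ * F) * (Fᵀ * F)).trace := by
  classical
  set B := Fᵀ * F with hB
  have hH : B.IsHermitian := by
    have := Matrix.isHermitian_conjTranspose_mul_self F
    rwa [Matrix.conjTranspose_eq_transpose_of_trivial] at this
  have hr : F.rank = (univ.filter fun i => hH.eigenvalues i ≠ 0).card := by
    rw [← Matrix.rank_transpose_mul_self F, ← hB, hH.rank_eq_card_non_zero_eigs,
      Fintype.card_subtype]
  have h1 : B.trace = ∑ i, hH.eigenvalues i := by
    have := hH.trace_eq_sum_eigenvalues; simpa using this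
  have h2 : (B * B).trace = ∑ i, hH.eigenvalues i ^ 2 := by
    set U : Matrix n n ℝ := (hH.eigenvectorUnitary : Matrix n n ℝ) with hU
    have hs : B = U * diagonal hH.eigenvalues * star U := by
      have := hH.spectral_theorem
      rw [Unitary.conjStarAlgAut_apply] at this
      simpa using this
    have hu : star U * U = 1 := (Unitary.mem_iff.mp hH.eigenvectorUnitary.2).1
    have e : B * B = U * (diagonal hH.eigenvalues * diagonal hH.eigenvalues) * star U := by
      conv_lhs => rw [hs]
      calc _ = U * diagonal hH.eigenvalues * (star U * U) * diagonal hH.eigenvalues * star U := by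
            simp only [Matrix.mul_assoc]
        _ = _ := by rw [hu]; simp only [Matrix.mul_assoc, Matrix.one_mul]
    rw [e, Matrix.trace_mul_comm, ← Matrix.mul_assoc, hu, Matrix.one_mul, diagonal_mul_diagonal,
      Matrix.trace_diagonal]
    simp only [sq]
  rw [h1, h2, hr]
  have e1 : ∑ i, hH.eigenvalues i = ∑ i ∈ univ.filter (fun i => hH.eigenvalues i ≠ 0), hH.eigenvalues i :=
    (Finset.sum_filter_ne_zero _).symm
  rw [e1]
  refine (sq_sum_le_card_mul_sum_sq).trans ?_
  gcongr
  exact Finset.filter_subset _ _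

end

end Vale.Agent.P346
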