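import Vale.Agent.P346.Trace

namespace Vale.Agent.P346

open Finset Matrix MvPolynomial

set_option linter.unusedSectionVars false

variable {n : ℕ}

abbrev Quad (n : ℕ) := Fin n × Fin n × Fin n × Fin n

noncomputable def iA (u : Quad n) : ℝ := if u.1 = u.2.1 ∧ u.2.2.1 = u.2.2.2 then 1 else 0
noncomputable def iB (u : Quad n) : ℝ := if u.1 = u.2.2.2 ∧ u.2.1 = u.2.2.1 then 1 else 0

lemma iA_nn (u : Quad n) : 0 ≤ iA u := by unfold iA; split_ifs <;> norm_num
lemma iB_nn (u : Quad n) : 0 ≤ iB u := by unfold iB; split_ifs <;> norm_num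
lemma iA_sq (u : Quad n) : iA u * iA u = iA u := by unfold iA; split_ifs <;> norm_num
lemma iB_sq (u : Quad n) : iB u * iB u = iB u := by unfold iB; split_ifs <;> norm_num
lemma sum_iA : ∑ u : Quad n, iA u = (n:ℝ) ^ 2 := by
  have : ∀ a c : Fin n, ∑ b : Fin n, ∑ d : Fin n, iA (a, b, c, d) = 1 := by
    intro a c
    rw [Finset.sum_eq_single a, Finset.sum_eq_single c]
    · simp [iA]
    · intro d _ h; simp [iA, h.symm]
    · simp
    · intro b _ h; exact Finset.sum_eq_zero fun d _ => by simp [iA, h.symm]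
    · simp
  simp only [Fintype.sum_prod_type]
  have e : ∀ a : Fin n, ∑ b : Fin n, ∑ c : Fin n, ∑ d : Fin n, iA (a, b, c, d) = n := by
    intro a; rw [Finset.sum_comm]; simp only [this]; simp
  simp only [e]; simp [sq]
lemma sum_iB : ∑ u : Quad n, iB u = (n:ℝ) ^ 2 := by
  have : ∀ a b : Fin n, ∑ c : Fin n, ∑ d : Fin n, iB (a, b, c, d) = 1 := by
    intro a b
    rw [Finset.sum_eq_single b, Finset.sum_eq_single a]
    · simp [iB]
    · intro d _ h; simp [iB, h.symm]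
    · simp
    · intro c _ h; exact Finset.sum_eq_zero fun d _ => by simp [iB, h.symm]
    · simp
  simp only [Fintype.sum_prod_type, this]; simp [sq]
lemma sum_iAB : ∑ u : Quad n, iA u * iB u = (n:ℝ) := by
  have : ∀ a : Fin n, ∑ b : Fin n, ∑ c : Fin n, ∑ d : Fin n, iA (a, b, c, d) * iB (a, b, c, d) = 1 := by
    intro a
    rw [Finset.sum_eq_single a, Finset.sum_eq_single a, Finset.sum_eq_single a]
    · simp [iA, iB]
    · intro d _ h; simp [iA, h.symm]
    · simp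
    · intro c _ h; refine Finset.sum_eq_zero fun d _ => ?_; simp [iB, h.symm]
    · simp
    · intro b _ h; refine Finset.sum_eq_zero fun c _ => Finset.sum_eq_zero fun d _ => ?_
      simp [iA, h.symm]
    · simp
  simp only [Fintype.sum_prod_type, this]; simp

def zipE (n : ℕ) : (Fin (n + 1) → Quad n) ≃ Path n × Path n × Path n × Path n where
  toFun u := (fun i => (u i).1, fun i => (u i).2.1, fun i => (u i).2.2.1, fun i => (u i).2.2.2)
  invFun q := fun i => (q.1 i, q.2.1 i, q.2.2.1 i, q.2.2.2 i)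
  left_inv _ := rfl
  right_inv _ := rfl

lemma quad_sum [NeZero n] (w h : ℕ → ℝ) (E : ℝ) (h0 : h 0 = 0) (hs : ∀ j, h (j + 1) = h j + w j)
    (hE : ∀ j, Real.exp (h j) ≤ E) (hE' : ∀ j, Real.exp (-h j) ≤ E) :
    ∑ u : Fin (n + 1) → Quad n, (if u 0 = (0, 0, 0, 0) then 1 else 0) *
      (∏ l : Fin n, (iA (u l.castSucc) * iA (u l.succ) +
        Real.exp (-w l) * (iB (u l.castSucc) * iB (u l.succ)))) *
      (iA (u (Fin.last n)) + Real.exp (h n) * iB (u (Fin.last n))) ≤ ((n:ℝ) ^ 2 + n * E) ^ n * 2 := by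
  have hE0 : 0 ≤ E := (Real.exp_pos _).le.trans (hE 0)
  have := transfer (fun j (u v : Quad n) => iA u * iA v + Real.exp (-w j) * (iB u * iB v))
    (fun j u => iA u + Real.exp (h j) * iB u) ((n:ℝ) ^ 2 + n * E)
    (fun j u v => by have := iA_nn u; have := iA_nn v; have := iB_nn u; have := iB_nn v; positivity)
    (by positivity) ?_ (0, 0, 0, 0) n
  · refine this.trans (le_of_eq ?_)
    simp only [h0, iA, iB]; norm_num
  · intro j u
    have e : ∀ v : Quad n, (iA u * iA v + Real.exp (-w j) * (iB u * iB v)) *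
        (iA v + Real.exp (h (j + 1)) * iB v) =
        iA u * iA v + (iA u * Real.exp (h (j + 1)) + Real.exp (-w j) * iB u) * (iA v * iB v) +
          Real.exp (-w j) * Real.exp (h (j + 1)) * iB u * iB v := by
      intro v
      linear_combination (iA u) * iA_sq v + (Real.exp (-w j) * Real.exp (h (j + 1)) * iB u) * iB_sq v
    simp only [e, Finset.sum_add_distrib, ← Finset.mul_sum, sum_iA, sum_iB, sum_iAB]
    have e1 : Real.exp (-w j) * Real.exp (h (j + 1)) = Real.exp (h j) := by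
      rw [← Real.exp_add, hs]; ring_nf
    have e2 : Real.exp (-w j) ≤ Real.exp (h j) * E := by
      have : Real.exp (-w j) = Real.exp (h j) * Real.exp (-h (j + 1)) := by
        rw [← Real.exp_add, hs]; ring_nf
      rw [this]; gcongr; exact hE' _
    rw [e1]
    have a1 : iA u * Real.exp (h (j + 1)) ≤ iA u * E := mul_le_mul_of_nonneg_left (hE _) (iA_nn u)
    have a2 : Real.exp (-w j) * iB u ≤ Real.exp (h j) * E * iB u :=
      mul_le_mul_of_nonneg_right e2 (iB_nn u)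
    have a3 : (iA u * Real.exp (h (j + 1)) + Real.exp (-w j) * iB u) * n ≤
        (iA u * E + Real.exp (h j) * E * iB u) * n := by gcongr
    nlinarith

lemma layer_bound (e1 e2 e3 e4 : Var n) (α β ρ : ℝ) (ω : Var n → ℝ) (hβ : 0 ≤ β) (hρ : 0 ≤ ρ)
    (h1 : α ≤ ρ * β) (h2 : 1 ≤ β * (1 + ρ)) (A B : ℝ) (hA0 : 0 ≤ A) (hB0 : 0 ≤ B)
    (hA : e1 = e2 → e3 = e4 → A = 1) (hB : e1 = e4 → e2 = e3 → B = 1)
    (hω1 : ω e1 = if e1 = e3 ∧ e1 ≠ e2 then α else β) (hω3 : ω e3 = if e1 ≠ e2 then α else β)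
    (hc : (e1 = e2 ∧ e3 = e4) ∨ (e1 = e4 ∧ e2 = e3)) :
    ∏ v ∈ ({e1, e3} : Finset (Var n)), ω v ≤ β ^ 2 * (A + ρ * B) := by
  by_cases c : e1 = e3
  · subst c
    have c2 : e1 = e2 := by rcases hc with h | h; exacts [h.1, h.2.symm]
    have c4 : e1 = e4 := by rcases hc with h | h; exacts [h.2, h.1]
    rw [Finset.pair_eq_singleton, Finset.prod_singleton, hω1, if_neg (fun h => h.2 c2), hA c2 c4,
      hB c4 c2.symm]
    nlinarith
  · rw [Finset.prod_pair c, hω1, if_neg (fun h => c h.1), hω3]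
    by_cases c2 : e1 = e2
    · have c4 : e3 = e4 := by
        rcases hc with h | h
        · exact h.2
        · exact absurd (c2.trans h.2) c
      rw [if_neg (not_not.mpr c2), hA c2 c4]
      have : 0 ≤ β ^ 2 * (ρ * B) := by positivity
      nlinarith
    · have := hc.resolve_left fun h => c2 h.1
      rw [if_pos c2, hB this.1 this.2]
      have : 0 ≤ β ^ 2 * A := by positivity
      have : β * α ≤ β * (ρ * β) := by gcongr
      nlinarith

section
variable (ty : ℕ → Prop) [DecidablePred ty] (P : Par (Var n))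
  (hY : P.Y = univ.filter fun v => ty v.1)
  (hk : P.k = (univ.filter fun l : Fin n => ty l).card)
  (hk' : P.k' = (univ.filter fun l : Fin n => ¬ ty l).card)
include hY hk

lemma card_Gp_Y (π : Path n) : (Gp π ∩ P.Y).card = P.k := by
  rw [hk, ← Finset.card_image_of_injective _ (edge_inj π)]
  congr 1; ext v
  simp only [hY, Finset.mem_inter, mem_Gp, Finset.mem_filter, Finset.mem_univ, true_and,
    Finset.mem_image]
  constructor
  · rintro ⟨h1, h2⟩; exact ⟨v.1, h2, h1.symm⟩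
  · rintro ⟨l, h1, rfl⟩; exact ⟨rfl, h1⟩

omit hk in
include hk' in
lemma card_Gp_Z (π : Path n) : (Gp π \ P.Y).card = P.k' := by
  rw [hk', ← Finset.card_image_of_injective _ (edge_inj π)]
  congr 1; ext v
  simp only [hY, Finset.mem_sdiff, mem_Gp, Finset.mem_filter, Finset.mem_univ, true_and,
    Finset.mem_image]
  constructor
  · rintro ⟨h1, h2⟩; exact ⟨v.1, h2, h1.symm⟩
  · rintro ⟨l, h1, rfl⟩; exact ⟨rfl, h1⟩

include hk'

lemma T1 (γ γ' : ℝ) (hγ0 : 0 ≤ γ) (hγ0' : 0 ≤ γ') (h2 : P.a + P.k ≤ P.Y.card)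
    (h2' : P.b + P.k' ≤ P.Yᶜ.card) (hγ : γ * P.Y.card ≤ (P.Y.card - P.a - P.k : ℝ))
    (hγ' : γ' * P.Yᶜ.card ≤ (P.Yᶜ.card - P.b - P.k' : ℝ)) :
    (univ.filter (valid (n := n))).card * (P.D * (γ ^ P.k * γ' ^ P.k')) ≤
      ((((F0 (P.lay (P.a + P.k) (P.b + P.k')) (P.lay P.a P.b) valid Gp)ᵀ *
        F0 (P.lay (P.a + P.k) (P.b + P.k')) (P.lay P.a P.b) valid Gp).trace : ℤ) : ℝ) := by
  have t := tr1 (P.lay (P.a + P.k) (P.b + P.k')) (P.lay P.a P.b) valid Gp (by
    intro π _ σ hσ hd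
    simp only [Par.lay, Finset.mem_filter, Finset.mem_univ, true_and] at hσ ⊢
    unfold Par.cy Par.cz at hσ ⊢
    rw [Finset.union_inter_distrib_right, Finset.union_sdiff_distrib,
      Finset.card_union_of_disjoint (hd.mono Finset.inter_subset_left Finset.inter_subset_left),
      Finset.card_union_of_disjoint (hd.mono Finset.sdiff_subset Finset.sdiff_subset),
      card_Gp_Y ty P hY hk, card_Gp_Z ty P hY hk', hσ.1, hσ.2]
    exact ⟨rfl, rfl⟩)
  refine le_trans ?_ (Int.cast_le.mpr t)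
  push_cast
  rw [← nsmul_eq_mul, ← Finset.sum_const]
  refine Finset.sum_le_sum fun π _ => ?_
  have c := P.cnt_ge P.a P.b (Gp π)
  have e1 : (P.Y \ Gp π).card = P.Y.card - P.k := by
    have := Finset.card_sdiff_add_card_inter P.Y (Gp π)
    rw [Finset.inter_comm, card_Gp_Y ty P hY hk] at this; omega
  have e2 : (P.Yᶜ \ Gp π).card = P.Yᶜ.card - P.k' := by
    have := Finset.card_sdiff_add_card_inter P.Yᶜ (Gp π)
    rw [Finset.inter_comm, ← Finset.sdiff_eq_inter_compl, card_Gp_Z ty P hY hk'] at this; omega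
  rw [e1, e2] at c
  have a1 := choose_low _ _ _ γ hγ0 h2 hγ _ le_rfl
  have a2 := choose_low _ _ _ γ' hγ0' h2' hγ' _ le_rfl
  calc _ = (P.Y.card.choose P.a * γ ^ P.k) * (P.Yᶜ.card.choose P.b * γ' ^ P.k') := by
        unfold Par.D; ring
    _ ≤ ((P.Y.card - P.k).choose P.a : ℝ) * ((P.Yᶜ.card - P.k').choose P.b : ℝ) :=
        mul_le_mul a1 a2 (by positivity) (by positivity)
    _ ≤ _ := by exact_mod_cast c

lemma T2 [NeZero n] (α β α' β' : ℝ) (hα0 : 0 ≤ α) (hβ0 : 0 ≤ β) (hα0' : 0 ≤ α') (hβ0' : 0 ≤ β')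
    (h1 : 2 * P.k ≤ P.a) (h2 : P.a + 2 * P.k ≤ P.Y.card) (h1' : 2 * P.k' ≤ P.b)
    (h2' : P.b + 2 * P.k' ≤ P.Yᶜ.card)
    (hα : (P.a : ℝ) ≤ α * (P.Y.card - (2 * P.k : ℕ)))
    (hβ : (P.Y.card - P.a : ℝ) ≤ β * (P.Y.card - (2 * P.k : ℕ)))
    (hα' : (P.b : ℝ) ≤ α' * (P.Yᶜ.card - (2 * P.k' : ℕ)))
    (hβ' : (P.Yᶜ.card - P.b : ℝ) ≤ β' * (P.Yᶜ.card - (2 * P.k' : ℕ)))
    (g1 : α ≤ Real.exp (-P.R) * β) (g2 : 1 ≤ β * (1 + Real.exp (-P.R)))
    (g1' : α' ≤ Real.exp P.S * β') (g2' : 1 ≤ β' * (1 + Real.exp P.S))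
    (h : ℕ → ℝ) (E : ℝ) (h0 : h 0 = 0) (hs : ∀ j, h (j + 1) = h j + (if ty j then P.R else -P.S))
    (hE : ∀ j, Real.exp (h j) ≤ E) (hE' : ∀ j, Real.exp (-h j) ≤ E) :
    (((((F0 (P.lay (P.a + P.k) (P.b + P.k')) (P.lay P.a P.b) valid Gp)ᵀ *
        F0 (P.lay (P.a + P.k) (P.b + P.k')) (P.lay P.a P.b) valid Gp) *
      ((F0 (P.lay (P.a + P.k) (P.b + P.k')) (P.lay P.a P.b) valid Gp)ᵀ *
        F0 (P.lay (P.a + P.k) (P.b + P.k')) (P.lay P.a P.b) valid Gp)).trace : ℤ) : ℝ) ≤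
      P.D * (β ^ P.k * β' ^ P.k') ^ 2 * (((n:ℝ) ^ 2 + n * E) ^ n * 2) := by
  classical
  have hD : 0 ≤ P.D := by unfold Par.D; positivity
  refine le_trans (Int.cast_le.mpr (tr2 _ _ _ _)) ?_
  push_cast
  rw [← (zipE n).sum_comp]
  refine le_trans ?_ (mul_le_mul_of_nonneg_left
    (quad_sum (fun j => if ty j then P.R else -P.S) h E h0 hs hE hE') (by positivity))
  rw [Finset.mul_sum]
  refine Finset.sum_le_sum fun u _ => ?_
  set q := zipE n u with hq
  have nnW : ∀ l : Fin n, 0 ≤ iA (u l.castSucc) * iA (u l.succ) +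
      Real.exp (-(if ty l then P.R else -P.S)) * (iB (u l.castSucc) * iB (u l.succ)) := by
    intro l
    have := iA_nn (u l.castSucc); have := iA_nn (u l.succ)
    have := iB_nn (u l.castSucc); have := iB_nn (u l.succ); positivity
  by_cases hc : ∃ σ, Cond valid Gp q σ
  swap
  · rw [Finset.filter_eq_empty_iff.mpr (fun σ _ h => hc ⟨σ, h⟩)]
    simp only [Finset.card_empty, Nat.cast_zero]
    have := iA_nn (u (Fin.last n)); have := iB_nn (u (Fin.last n))
    have := Finset.prod_nonneg (s := univ) fun l _ => nnW l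
    split_ifs <;> positivity
  obtain ⟨σ0, hσ0⟩ := hc
  have hl := (cond_layer hσ0).1
  obtain ⟨v1, v2, v3, v4, -⟩ := hσ0
  set G := Gp q.1 ∪ Gp q.2.2.1 with hG
  set I := G.filter fun v => v = edge q.2.2.1 v.1 ∧ edge q.1 v.1 ≠ edge q.2.1 v.1 with hI
  have c1 : (((P.lay P.a P.b).filter fun σ => Cond valid Gp q σ).card : ℝ) ≤
      ((P.lay P.a P.b).filter fun σ => σ ∩ G = I).card := by
    refine Nat.cast_le.mpr (Finset.card_le_card fun σ hσ => ?_)
    rw [Finset.mem_filter] at hσ ⊢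
    exact ⟨hσ.1, (cond_layer hσ.2).2⟩
  have c2 := P.cnt_real α β α' β' hα0 hβ0 hα0' hβ0' _ _ h1 h2 h1' h2' hα hβ hα' hβ' G I
    (Finset.filter_subset _ _)
    (by rw [hG, Finset.union_inter_distrib_right]
        refine (Finset.card_union_le _ _).trans ?_
        rw [card_Gp_Y ty P hY hk, card_Gp_Y ty P hY hk]; omega)
    (by rw [hG, Finset.union_sdiff_distrib]
        refine (Finset.card_union_le _ _).trans ?_
        rw [card_Gp_Z ty P hY hk', card_Gp_Z ty P hY hk']; omega)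
  refine (c1.trans c2).trans ?_
  have u0 : u 0 = (0, 0, 0, 0) :=
    Prod.ext (Fin.ext v1.1) (Prod.ext (Fin.ext v2.1) (Prod.ext (Fin.ext v3.1) (Fin.ext v4.1)))
  have ul : 1 ≤ iA (u (Fin.last n)) + Real.exp (h n) * iB (u (Fin.last n)) := by
    have : iA (u (Fin.last n)) = 1 :=
      if_pos ⟨Fin.ext (v1.2.trans v2.2.symm), Fin.ext (v3.2.trans v4.2.symm)⟩
    have := iB_nn (u (Fin.last n))
    have := Real.exp_pos (h n)
    nlinarith
  rw [if_pos u0, one_mul, mul_assoc P.D]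
  refine mul_le_mul_of_nonneg_left ?_ hD
  have pb : (β ^ P.k * β' ^ P.k') ^ 2 = ∏ l : Fin n, (if ty l then β else β') ^ 2 := by
    rw [Finset.prod_pow, Finset.prod_ite, Finset.prod_const, Finset.prod_const, hk, hk']
  rw [← mul_assoc, pb, ← Finset.prod_mul_distrib]
  refine le_trans ?_ (le_mul_of_one_le_right (Finset.prod_nonneg fun l _ =>
    mul_nonneg (sq_nonneg _) (nnW l)) ul)
  rw [← Finset.prod_fiberwise G Prod.fst]
  refine Finset.prod_le_prod (fun l _ => Finset.prod_nonneg fun v _ => by split_ifs <;> assumption)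
    fun l _ => ?_
  have ef : G.filter (fun v => v.1 = l) = {edge q.1 l, edge q.2.2.1 l} := by
    ext v
    simp only [hG, Finset.mem_filter, Finset.mem_union, mem_Gp, Finset.mem_insert,
      Finset.mem_singleton]
    constructor
    · rintro ⟨h1, rfl⟩; exact h1
    · rintro (rfl | rfl)
      · exact ⟨Or.inl rfl, rfl⟩
      · exact ⟨Or.inr rfl, rfl⟩
  rw [ef]
  have mY : ∀ π : Path n, edge π l ∈ P.Y ↔ ty l := by intro π; simp [hY, edge]
  have m1 : edge q.1 l ∈ G := Finset.mem_union_left _ (mem_Gp.mpr rfl)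
  have m3 : edge q.2.2.1 l ∈ G := Finset.mem_union_right _ (mem_Gp.mpr rfl)
  refine layer_bound (edge q.1 l) (edge q.2.1 l) (edge q.2.2.1 l) (edge q.2.2.2 l)
    (if ty l then α else α') _ _ _ (by split_ifs <;> assumption) (Real.exp_pos _).le ?_ ?_ _ _
    (mul_nonneg (iA_nn _) (iA_nn _)) (mul_nonneg (iB_nn _) (iB_nn _)) ?_ ?_ ?_ ?_ (hl l)
  · split_ifs
    · exact g1
    · rw [neg_neg]; exact g1'
  · split_ifs
    · exact g2
    · rw [neg_neg]; exact g2'
  · intro a b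
    simp only [edge, Prod.mk.injEq, true_and] at a b
    rw [iA, iA, if_pos ⟨a.1, b.1⟩, if_pos ⟨a.2, b.2⟩, one_mul]
  · intro a b
    simp only [edge, Prod.mk.injEq, true_and] at a b
    rw [iB, iB, if_pos ⟨a.1, b.1⟩, if_pos ⟨a.2, b.2⟩, one_mul]
  · have : edge q.1 l ∈ I ↔ edge q.1 l = edge q.2.2.1 l ∧ edge q.1 l ≠ edge q.2.1 l := by
      rw [hI, Finset.mem_filter]; exact ⟨fun h => h.2, fun h => ⟨m1, h⟩⟩
    simp only [this, mY]
  · have : edge q.2.2.1 l ∈ I ↔ edge q.1 l ≠ edge q.2.1 l := by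
      rw [hI, Finset.mem_filter]; exact ⟨fun h => h.2.2, fun h => ⟨m3, rfl, h⟩⟩
    simp only [this, mY]

end

lemma mu_lower {K : Type*} [Field K] [CharZero K] (P : Par (Var n)) (x y : ℝ) (hx : 0 ≤ x)
    (h1 : x ≤ ((((F0 (P.lay (P.a + P.k) (P.b + P.k')) (P.lay P.a P.b) valid Gp)ᵀ *
        F0 (P.lay (P.a + P.k) (P.b + P.k')) (P.lay P.a P.b) valid Gp).trace : ℤ) : ℝ))
    (h2 : (((((F0 (P.lay (P.a + P.k) (P.b + P.k')) (P.lay P.a P.b) valid Gp)ᵀ *
        F0 (P.lay (P.a + P.k) (P.b + P.k')) (P.lay P.a P.b) valid Gp) *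
      ((F0 (P.lay (P.a + P.k) (P.b + P.k')) (P.lay P.a P.b) valid Gp)ᵀ *
        F0 (P.lay (P.a + P.k) (P.b + P.k')) (P.lay P.a P.b) valid Gp)).trace : ℤ) : ℝ) ≤ y) :
    x ^ 2 ≤ P.mu (IMM K n) * y := by
  rw [mu_IMM]
  set F := F0 (P.lay (P.a + P.k) (P.b + P.k')) (P.lay P.a P.b) valid Gp
  have t := trace_sq_le (F.map (Int.cast : ℤ → ℝ))
  have e1 : ((F.map (Int.cast : ℤ → ℝ))ᵀ * F.map (Int.cast : ℤ → ℝ)) = (Fᵀ * F).map Int.cast := by
    ext i j; simp [Matrix.mul_apply]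
  have e2 : (Fᵀ * F).map (Int.cast : ℤ → ℝ) * (Fᵀ * F).map Int.cast =
      ((Fᵀ * F) * (Fᵀ * F)).map Int.cast := by
    generalize Fᵀ * F = B
    ext i j; simp [Matrix.mul_apply]
  have e3 : ∀ B : Matrix (Finset (Var n)) (Finset (Var n)) ℤ,
      (B.map (Int.cast : ℤ → ℝ)).trace = (B.trace : ℤ) := by
    intro B; simp [Matrix.trace]
  rw [e1, e2, e3, e3] at t
  have r : ((F.map (Int.cast : ℤ → ℝ)).rank : ℝ) ≤ (F.map (Int.cast : ℤ → K)).rank := by
    exact_mod_cast rank_int_le F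
  have nn : (0:ℝ) ≤ (((Fᵀ * F) * (Fᵀ * F)).trace : ℤ) := by
    have : 0 ≤ ((Fᵀ * F) * (Fᵀ * F)).trace := by
      refine Finset.sum_nonneg fun i _ => ?_
      rw [Matrix.diag_apply, Matrix.mul_apply]
      refine Finset.sum_nonneg fun j _ => ?_
      have : (Fᵀ * F) j i = (Fᵀ * F) i j := by
        simp only [Matrix.mul_apply, Matrix.transpose_apply, mul_comm]
      rw [this]; exact mul_self_nonneg _
    exact_mod_cast this
  calc x ^ 2 ≤ _ := pow_le_pow_left₀ hx h1 2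
    _ ≤ _ := t
    _ ≤ _ := mul_le_mul r h2 nn (by positivity)

end Vale.Agent.P346
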