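import Vale.Agent.P346.Lower
import Vale.Agent.P346.Circ

namespace Vale.Agent.P346

open Finset Matrix MvPolynomial Filter

universe u

noncomputable def hw (R S : ℝ) : ℕ → ℝ
  | 0 => 0
  | j + 1 => hw R S j + (if hw R S j ≤ 0 then R else -S)

lemma hw_bd {R S : ℝ} (hR : 0 ≤ R) (hRS : R ≤ S) (j : ℕ) : -S ≤ hw R S j ∧ hw R S j ≤ S := by
  induction j with
  | zero => simp only [hw]; constructor <;> linarith
  | succ j ih => simp only [hw]; split_ifs with h <;> constructor <;> linarith [ih.1, ih.2]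

lemma hw_sum (R S : ℝ) (j : ℕ) :
    hw R S j = ∑ l ∈ range j, (if hw R S l ≤ 0 then R else -S) := by
  induction j with
  | zero => simp [hw]
  | succ j ih => rw [Finset.sum_range_succ, ← ih]; rfl

lemma card_layers {n : ℕ} (p : Fin n → Prop) [DecidablePred p] :
    (univ.filter fun v : Var n => p v.1).card = (univ.filter p).card * n ^ 2 := by
  have : (univ.filter fun v : Var n => p v.1) = (univ.filter p) ×ˢ (univ : Finset (Fin n × Fin n)) := by
    ext v; simp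
  rw [this, Finset.card_product]; simp [sq]

lemma ratio_aux {n m c : ℝ} (hn : 16 ≤ n) (hm : m = n ^ 2) (hc : 8 * n ≤ c) :
    (1 - 1 / (4 * n)) * (c / (m - 2)) ≤ (c - 1) / m := by
  have hm0 : 0 < m := by rw [hm]; positivity
  have hm2 : 0 < m - 2 := by rw [hm]; nlinarith
  have hn0 : 0 < n := by linarith
  rw [← mul_div_assoc, div_le_div_iff₀ hm2 hm0]
  have e : (1 - 1 / (4 * n)) * c * m = c * m - c * n / 4 := by rw [hm]; field_simp
  rw [e, hm]; nlinarith

lemma num_low (n k k' : ℕ) (hkk : k + k' = n) (nR : (16:ℝ) ≤ n) (m D V μ E β β' γ γ' : ℝ)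
    (hm : m = (n:ℝ) ^ 2) (hD : 0 < D) (V0 : 0 ≤ V) (μ0 : 0 ≤ μ) (E0 : 0 < E) (β0 : 0 < β)
    (β0' : 0 < β') (r1 : (1 - 1 / (4 * n)) * β ≤ γ) (r2 : (1 - 1 / (4 * n)) * β' ≤ γ')
    (hVn : (n:ℝ) ^ (n + 1) ≤ V * m)
    (low : (V * (D * (γ ^ k * γ' ^ k'))) ^ 2 ≤ μ * (D * (β ^ k * β' ^ k') ^ 2 * ((m + n * E) ^ n * 2))) :
    D ≤ μ * (4 * m * Real.exp E) := by
  have m0 : 0 < m := by rw [hm]; positivity
  set θ : ℝ := 1 - 1 / (4 * n) with hθ
  have θ0 : 0 ≤ θ := by
    rw [hθ, sub_nonneg, div_le_one (by positivity)]; linarith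
  have θn : 1 / 2 ≤ θ ^ (2 * n) := by
    have h4 : 1 / (4 * (n:ℝ)) ≤ 1 := by rw [div_le_one (by positivity)]; linarith
    have := one_add_mul_le_pow (a := -(1 / (4 * (n:ℝ)))) (by linarith) (2 * n)
    have e : 1 + ((2 * n : ℕ) : ℝ) * -(1 / (4 * (n:ℝ))) = 1 / 2 := by push_cast; field_simp; ring
    rw [e] at this; exact this
  clear_value θ
  have γ0 : 0 ≤ γ := le_trans (by positivity) r1
  have γ0' : 0 ≤ γ' := le_trans (by positivity) r2
  have r3 : θ ^ n * (β ^ k * β' ^ k') ≤ γ ^ k * γ' ^ k' := by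
    calc θ ^ n * (β ^ k * β' ^ k') = (θ * β) ^ k * (θ * β') ^ k' := by
          rw [mul_pow, mul_pow, ← hkk, pow_add]
          ring
      _ ≤ _ := by gcongr
  have W0 : 0 < β ^ k * β' ^ k' := by positivity
  generalize β ^ k * β' ^ k' = W at *
  generalize γ ^ k * γ' ^ k' = W' at *
  have pw : (m + n * E) ^ n ≤ m ^ n * Real.exp E := by
    have e1 : m + n * E = m * (1 + E / n) := by rw [hm]; field_simp
    have e2 : 1 + E / n ≤ Real.exp (E / n) := by have := Real.add_one_le_exp (E / n); linarith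
    rw [e1, mul_pow]
    refine mul_le_mul_of_nonneg_left ?_ (by positivity)
    calc _ ≤ Real.exp (E / n) ^ n := by gcongr
      _ = _ := by rw [← Real.exp_nat_mul]; congr 1; field_simp
  have s1 : (V * (D * (θ ^ n * W))) ^ 2 ≤ μ * (D * W ^ 2 * (m ^ n * Real.exp E * 2)) := by
    refine le_trans (by gcongr) (low.trans ?_)
    gcongr
  have s2 : m ^ (n + 1) ≤ V ^ 2 * m ^ 2 := by
    calc m ^ (n + 1) = ((n:ℝ) ^ (n + 1)) ^ 2 := by rw [hm, ← pow_mul, ← pow_mul, mul_comm]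
      _ ≤ (V * m) ^ 2 := by gcongr
      _ = _ := by ring
  have s3 : m ^ n ≤ V ^ 2 * m := by
    rw [pow_succ, sq m, ← mul_assoc] at s2; exact le_of_mul_le_mul_right s2 m0
  have s4 : (V * (D * (θ ^ n * W))) ^ 2 = V ^ 2 * θ ^ (2 * n) * (D * (D * W ^ 2)) := by ring
  have s5 : m ^ n * D * (D * W ^ 2) ≤ m ^ n * (μ * (4 * m * Real.exp E)) * (D * W ^ 2) := by
    calc _ ≤ (V ^ 2 * m) * D * (D * W ^ 2) := by gcongr
      _ = 2 * m * (V ^ 2 * (1 / 2) * (D * (D * W ^ 2))) := by ring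
      _ ≤ 2 * m * (V ^ 2 * θ ^ (2 * n) * (D * (D * W ^ 2))) := by gcongr
      _ ≤ 2 * m * (μ * (D * W ^ 2 * (m ^ n * Real.exp E * 2))) := by rw [← s4]; gcongr
      _ = _ := by ring
  exact le_of_mul_le_mul_left (le_of_mul_le_mul_right s5 (by positivity)) (by positivity)

lemma num_fin (n t : ℕ) (L q S z : ℝ) (nR : (18:ℝ) ≤ n) (hL : 20000 ≤ L) (hq : 20000 ≤ q)
    (qq : q * q = n) (en : Real.exp L = n) (t1 : 2 * (t:ℝ) ≤ q) (t2 : q / 4 ≤ t)
    (eS : Real.exp S ≤ q) (z0 : 0 ≤ z)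
    (c : Real.exp (L / 48 * t / 2) ≤ z ^ 2 *
      (4 * n ^ 2 * (n + 1) ^ 2 * 2 ^ t * Real.exp S * Real.exp (Real.exp S))) :
    Real.exp (L * (q / 1000)) ≤ z := by
  have b1 : 4 * (n:ℝ) ^ 2 * (n + 1) ^ 2 * 2 ^ t * Real.exp S * Real.exp (Real.exp S) ≤
      Real.exp (6 * L + 2 * q) := by
    have p1 : (2:ℝ) ^ t ≤ Real.exp q := by
      have h2 : (2:ℝ) ≤ Real.exp 1 := by have := Real.add_one_le_exp 1; linarith
      calc (2:ℝ) ^ t ≤ Real.exp 1 ^ t := by gcongr
        _ = Real.exp t := by rw [← Real.exp_nat_mul, mul_one]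
        _ ≤ _ := Real.exp_le_exp.mpr (by linarith)
    have p2 : 4 * (n:ℝ) ^ 2 * (n + 1) ^ 2 * Real.exp S ≤ (n:ℝ) ^ 6 := by
      have : Real.exp S ≤ n := by nlinarith
      have h1 : (n:ℝ) + 1 ≤ 2 * n := by linarith
      have h2 : (16:ℝ) ≤ n := by linarith
      calc _ ≤ 4 * (n:ℝ) ^ 2 * (2 * n) ^ 2 * n := by gcongr
        _ = 16 * (n:ℝ) ^ 5 := by ring
        _ ≤ n * (n:ℝ) ^ 5 := by gcongr
        _ = _ := by ring
    calc _ = (4 * (n:ℝ) ^ 2 * (n + 1) ^ 2 * Real.exp S) * 2 ^ t * Real.exp (Real.exp S) := by ring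
      _ ≤ (n:ℝ) ^ 6 * Real.exp q * Real.exp q := by gcongr
      _ = _ := by
          rw [← en, ← Real.exp_nat_mul, ← Real.exp_add, ← Real.exp_add]; congr 1; push_cast; ring
  have b2 : Real.exp (L * (q / 1000)) ^ 2 * Real.exp (6 * L + 2 * q) ≤ Real.exp (L / 48 * t / 2) := by
    rw [← Real.exp_nat_mul, ← Real.exp_add]
    apply Real.exp_le_exp.mpr
    have h1 : L * (q / 4) ≤ L * t := by gcongr
    have h2 : L * 20000 ≤ L * q := by gcongr
    have h3 : 20000 * q ≤ L * q := by gcongr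
    push_cast; linarith
  have b3 : Real.exp (L * (q / 1000)) ^ 2 ≤ z ^ 2 := by
    refine le_of_mul_le_mul_right (b2.trans (c.trans ?_)) (Real.exp_pos (6 * L + 2 * q))
    gcongr
  exact (pow_le_pow_iff_left₀ (Real.exp_pos _).le z0 two_ne_zero).mp b3

set_option maxHeartbeats 1000000 in
theorem core {K : Type u} [Field K] [CharZero K] (n a0 c0 t : ℕ) (G : ℝ) (hn : 16 ≤ n)
    (ha1 : 8 * n ≤ a0) (ha2 : a0 + 8 * n ≤ n ^ 2) (hc1 : 8 * n ≤ c0) (hc2 : c0 + 8 * n ≤ n ^ 2)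
    (R S : ℝ) (hR : R = Real.log (((n:ℝ) ^ 2 - a0) / a0)) (hS : S = Real.log (((n:ℝ) ^ 2 - c0) / c0))
    (hR0 : 0 ≤ R) (hRS : R ≤ S) (g1 : G ≤ R - t * (S - R)) (g2 : G ≤ t * (S - R) / 2)
    (ht : 1 ≤ t) (htn : t * (2 * t - 1) ≤ n) (Γ : Circuit K (Var n)) (hΓ : Γ.Homogeneous)
    (hout : Γ.out = IMM K n) :
    Real.exp (G * t / 2) ≤ (Γ.size : ℝ) ^ 2 *
      (4 * n ^ 2 * (n + 1) ^ 2 * 2 ^ t * Real.exp S * Real.exp (Real.exp S)) := by
  classical
  have : NeZero n := ⟨by omega⟩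
  set ty : ℕ → Prop := fun j => hw R S j ≤ 0 with hty
  set k := (univ.filter fun l : Fin n => ty l).card with hk
  set k' := (univ.filter fun l : Fin n => ¬ ty l).card with hk'
  have hkk : k + k' = n := by
    rw [hk, hk', Finset.card_filter_add_card_filter_not]; simp
  set P : Par (Var n) := ⟨univ.filter fun v => ty v.1, R, S, k * a0, k' * (n ^ 2 - c0), k, k'⟩ with hP
  have cY : P.Y.card = k * n ^ 2 := card_layers fun l : Fin n => ty l
  have cZ : P.Yᶜ.card = k' * n ^ 2 := by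
    rw [← card_layers fun l : Fin n => ¬ ty l]; congr 1; ext v; simp [hP]
  set m : ℝ := (n:ℝ) ^ 2 with hm
  have nR : (16:ℝ) ≤ n := by exact_mod_cast hn
  have a1 : 8 * (n:ℝ) ≤ a0 := by exact_mod_cast ha1
  have a2 : (a0:ℝ) + 8 * n ≤ m := by rw [hm]; exact_mod_cast ha2
  have c1 : 8 * (n:ℝ) ≤ c0 := by exact_mod_cast hc1
  have c2 : (c0:ℝ) + 8 * n ≤ m := by rw [hm]; exact_mod_cast hc2
  have m2 : 0 < m - 2 := by linarith
  have m0 : 0 < m := by linarith
  have a0p : (0:ℝ) < a0 := by linarith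
  have c0p : (0:ℝ) < c0 := by linarith
  have map : 0 < m - a0 := by linarith
  have mcp : 0 < m - c0 := by linarith
  have eR : Real.exp R = (m - a0) / a0 := by rw [hR, Real.exp_log (by positivity)]
  have eS : Real.exp S = (m - c0) / c0 := by rw [hS, Real.exp_log (by positivity)]
  have eR' : Real.exp (-R) = a0 / (m - a0) := by rw [Real.exp_neg, eR, inv_div]
  have eS' : Real.exp (-S) = c0 / (m - c0) := by rw [Real.exp_neg, eS, inv_div]
  have cYR : (P.Y.card : ℝ) = k * m := by rw [cY]; push_cast; rfl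
  have cZR : (P.Yᶜ.card : ℝ) = k' * m := by rw [cZ]; push_cast; rfl
  have PaR : (P.a : ℝ) = k * a0 := by simp [hP]
  have PbR : (P.b : ℝ) = k' * (m - c0) := by
    simp only [hP]; push_cast [Nat.cast_sub (by omega : c0 ≤ n ^ 2)]; rfl
  have Pa : P.a = k * a0 := rfl
  have Pb : P.b = k' * (n ^ 2 - c0) := rfl
  have Pk : P.k = k := rfl
  have Pk' : P.k' = k' := rfl
  have PR : P.R = R := rfl
  have PS : P.S = S := rfl
  have n1 : P.a + 2 * k ≤ P.Y.card := by
    rw [cY, Pa]; calc k * a0 + 2 * k = k * (a0 + 2) := by ring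
      _ ≤ _ := Nat.mul_le_mul_left _ (by omega)
  have n2 : P.b + 2 * k' ≤ P.Yᶜ.card := by
    rw [cZ, Pb]; calc k' * (n ^ 2 - c0) + 2 * k' = k' * (n ^ 2 - c0 + 2) := by ring
      _ ≤ _ := Nat.mul_le_mul_left _ (by omega)
  have hD : 0 < P.D := by
    unfold Par.D
    have := Nat.choose_pos (show P.a ≤ P.Y.card by omega)
    have := Nat.choose_pos (show P.b ≤ P.Yᶜ.card by omega)
    positivity
  have hb := hw_bd hR0 hRS
  have t1 := T1 ty P rfl rfl rfl ((m - a0 - 1) / m) ((c0 - 1) / m)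
    (div_nonneg (by linarith) m0.le) (div_nonneg (by linarith) m0.le) (by omega) (by omega)
    (by rw [cYR, PaR, Pk]; apply le_of_eq; field_simp)
    (by rw [cZR, PbR, Pk']; apply le_of_eq; field_simp; ring)
  have t2 := T2 ty P rfl rfl rfl (a0 / (m - 2)) ((m - a0) / (m - 2)) ((m - c0) / (m - 2))
    (c0 / (m - 2)) (by positivity) (by positivity) (by positivity) (by positivity)
    (by rw [Pa, Pk, mul_comm]; exact Nat.mul_le_mul_left _ (by omega)) n1
    (by rw [Pb, Pk', mul_comm]; exact Nat.mul_le_mul_left _ (by omega)) n2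
    (by rw [cYR, PaR, Pk]; apply le_of_eq; push_cast; field_simp)
    (by rw [cYR, PaR, Pk]; apply le_of_eq; push_cast; field_simp)
    (by rw [cZR, PbR, Pk']; apply le_of_eq; push_cast; field_simp)
    (by rw [cZR, PbR, Pk']; apply le_of_eq; push_cast; field_simp; ring)
    (by rw [PR, eR']; apply le_of_eq; field_simp)
    (by rw [PR, eR']
        have : (m - a0) / (m - 2) * (1 + a0 / (m - a0)) = m / (m - 2) := by field_simp; ring
        rw [this, le_div_iff₀ m2]; linarith)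
    (by rw [PS, eS]; apply le_of_eq; field_simp)
    (by rw [PS, eS]
        have : c0 / (m - 2) * (1 + (m - c0) / c0) = m / (m - 2) := by field_simp; ring
        rw [this, le_div_iff₀ m2]; linarith)
    (hw R S) (Real.exp S) rfl (fun j => rfl) (fun j => Real.exp_le_exp.mpr (hb j).2)
    (fun j => Real.exp_le_exp.mpr (by linarith [(hb j).1]))
  have low := mu_lower (K := K) P _ _ (by
    have : 0 ≤ (m - a0 - 1) / m := div_nonneg (by linarith) m0.le
    have : 0 ≤ (c0 - 1) / m := div_nonneg (by linarith) m0.le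
    positivity) t1 t2
  rw [Pk, Pk'] at low
  set E := Real.exp S with hE
  have E0 : 0 < E := Real.exp_pos _
  set μ : ℝ := (P.mu (IMM K n) : ℝ) with hμ
  have low2 : P.D ≤ μ * (4 * m * Real.exp E) :=
    num_low n k k' hkk nR m P.D _ μ E _ _ _ _ hm hD (Nat.cast_nonneg _) (Nat.cast_nonneg _) E0
      (by positivity) (by positivity) (ratio_aux nR hm (by linarith)) (ratio_aux nR hm c1)
      (by rw [hm]; exact_mod_cast card_valid) low
  have hhn : P.k * P.R - P.k' * P.S ≤ S := by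
    have := hw_sum R S n
    rw [Finset.sum_range, Finset.sum_ite, Finset.sum_const, Finset.sum_const] at this
    have h2 := (hb n).2
    rw [this] at h2
    simp only [nsmul_eq_mul, mul_neg] at h2
    exact h2
  have hB : ∀ x y, x ≤ y → ((P.mid x).card : ℝ) ≤ (n + 1) ^ 2 * P.D * Real.exp y := by
    intro x y hxy
    refine (P.card_mid (by rw [cYR, PaR, PR, eR]; apply le_of_eq; field_simp)
      (by rw [cZR, PbR, PS, eS']; apply le_of_eq; field_simp; ring) x y hxy).trans ?_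
    have k1 : (P.k : ℝ) ≤ n := by exact_mod_cast (by omega : P.k ≤ n)
    have k2 : (P.k' : ℝ) ≤ n := by exact_mod_cast (by omega : P.k' ≤ n)
    rw [sq]; gcongr
  have up := Γ.mu_out P (2 ^ t * ((n + 1) ^ 2 * P.D * Real.exp (S - G * t / 2))) (by positivity) t n
    ht htn (fun L H hL hQ => by
      have := P.mu_gap _ hB S G (by linarith) hhn L (fun f hf => by
        obtain ⟨e, h1, h2⟩ := hQ f hf
        exact P.gap_of_hom h1 hRS g1 g2 hR0 h2) H 1 1 0 0 P.up_one P.dn_one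
      simpa [hL] using this) hΓ (hout ▸ IMM_hom)
  rw [hout, ← hμ] at up
  have fin : P.D * Real.exp (G * t / 2) ≤ P.D * ((Γ.size : ℝ) ^ 2 *
      (4 * m * (n + 1) ^ 2 * 2 ^ t * E * Real.exp E)) := by
    have e : Real.exp (S - G * t / 2) * Real.exp (G * t / 2) = E := by
      rw [← Real.exp_add]; congr 1; ring
    calc _ ≤ μ * (4 * m * Real.exp E) * Real.exp (G * t / 2) := by gcongr
      _ ≤ ((Γ.size : ℝ) ^ 2 * (2 ^ t * ((n + 1) ^ 2 * P.D * Real.exp (S - G * t / 2)))) *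
          (4 * m * Real.exp E) * Real.exp (G * t / 2) := by gcongr
      _ = _ := by rw [← e]; ring
  exact le_of_mul_le_mul_left fin hD

lemma exists_param (n : ℕ) (hn : 18 ≤ n) (y : ℝ) (hy : 0 ≤ y) (hx : (1 + Real.exp y) * 9 ≤ n) :
    ∃ a0 : ℕ, 8 * n ≤ a0 ∧ a0 + 8 * n ≤ n ^ 2 ∧ y ≤ Real.log (((n:ℝ) ^ 2 - a0) / a0) ∧
      Real.log (((n:ℝ) ^ 2 - a0) / a0) ≤ y + 1 / n := by
  set x := Real.exp y with hxd
  have x1 : 1 ≤ x := Real.one_le_exp hy
  have nR : (18:ℝ) ≤ n := by exact_mod_cast hn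
  set a0 := ⌊(n:ℝ) ^ 2 / (1 + x)⌋₊ with ha
  have f1 : (a0:ℝ) ≤ (n:ℝ) ^ 2 / (1 + x) := Nat.floor_le (by positivity)
  have f2 : (n:ℝ) ^ 2 / (1 + x) < a0 + 1 := Nat.lt_floor_add_one _
  rw [le_div_iff₀ (by positivity)] at f1
  rw [div_lt_iff₀ (by positivity)] at f2
  have f3 : 8 * (n:ℝ) ≤ a0 := by
    by_contra h
    push Not at h
    have : (a0 + 1) * (1 + x) ≤ (9 * n) * (1 + x) := by gcongr; linarith
    nlinarith
  have a0p : (0:ℝ) < a0 := by linarith
  have f4 : (a0:ℝ) + 8 * n ≤ (n:ℝ) ^ 2 := by nlinarith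
  have g1 : x ≤ ((n:ℝ) ^ 2 - a0) / a0 := by rw [le_div_iff₀ a0p]; linarith
  have g2 : ((n:ℝ) ^ 2 - a0) / a0 ≤ x * (1 + 1 / n) := by
    rw [div_le_iff₀ a0p]
    have : 2 * x ≤ x * (1 / n) * a0 := by
      have : 2 ≤ 1 / n * (a0:ℝ) := by
        rw [one_div, inv_mul_eq_div, le_div_iff₀ (by linarith)]; linarith
      nlinarith
    nlinarith
  refine ⟨a0, by exact_mod_cast f3, by exact_mod_cast f4, ?_, ?_⟩
  · rw [Real.le_log_iff_exp_le (by linarith)]; exact g1
  · rw [Real.log_le_iff_le_exp (by linarith), Real.exp_add]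
    refine g2.trans ?_
    have := Real.add_one_le_exp (1 / (n:ℝ))
    gcongr; linarith

set_option maxHeartbeats 1000000 in
theorem lower_bound : ∃ n₀ : ℕ, ∀ n ≥ n₀, ∀ (K : Type u) [Field K] [CharZero K]
    (Γ : Circuit K (Var n)), Γ.Homogeneous → Γ.out = IMM K n →
      (n:ℝ) ^ (√n / 1000) ≤ Γ.size := by
  have e1 : ∀ᶠ n : ℕ in atTop, (20000:ℝ) ≤ Real.log n :=
    (Real.tendsto_log_atTop.comp tendsto_natCast_atTop_atTop).eventually_ge_atTop _
  have e2 : ∀ᶠ n : ℕ in atTop, (20000:ℝ) ≤ √n :=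
    (Real.tendsto_sqrt_atTop.comp tendsto_natCast_atTop_atTop).eventually_ge_atTop _
  obtain ⟨n0, h0⟩ := eventually_atTop.mp (e1.and (e2.and (eventually_ge_atTop 18)))
  refine ⟨n0, fun n hn K _ _ Γ hΓ hout => ?_⟩
  obtain ⟨hL, hq, hn18⟩ := h0 n hn
  have nR : (18:ℝ) ≤ n := by exact_mod_cast hn18
  set L := Real.log n with hLd
  set q := √(n:ℝ) with hqd
  have qq : q * q = n := Real.mul_self_sqrt (by positivity)
  have eq : Real.exp (L / 2) = q := by
    rw [hqd, Real.sqrt_eq_rpow, Real.rpow_def_of_pos (by linarith)]; congr 1; ring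
  set t := Nat.sqrt n / 2 with ht
  have s1 : (Nat.sqrt n : ℝ) ≤ q := by
    rw [hqd, Real.le_sqrt (by positivity) (by positivity)]; exact_mod_cast Nat.sqrt_le' n
  have s2 : q < Nat.sqrt n + 1 := by
    rw [hqd, Real.sqrt_lt' (by positivity)]; exact_mod_cast Nat.lt_succ_sqrt' n
  have t1 : 2 * (t:ℝ) ≤ q := by
    have : 2 * t ≤ Nat.sqrt n := by omega
    have : 2 * (t:ℝ) ≤ Nat.sqrt n := by exact_mod_cast this
    linarith
  have t2 : q / 4 ≤ t := by
    have : Nat.sqrt n ≤ 2 * t + 1 := by omega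
    have : (Nat.sqrt n : ℝ) ≤ 2 * t + 1 := by exact_mod_cast this
    linarith
  have tp : (1:ℝ) ≤ t := by linarith
  have tn : (t:ℝ) ≤ n := by nlinarith
  have htn : t * (2 * t - 1) ≤ n := by
    have h1 : 2 * t ≤ Nat.sqrt n := by omega
    have h2 := Nat.sqrt_le n
    calc t * (2 * t - 1) ≤ Nat.sqrt n * Nat.sqrt n := Nat.mul_le_mul (by omega) (by omega)
      _ ≤ n := h2
  have y2 : L / 4 / (3 * t) ≤ L / 12 := by
    rw [div_le_iff₀ (by positivity)]; nlinarith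
  have y3 : 0 ≤ L / 4 / (3 * t) := by positivity
  have hx : ∀ y, y ≤ L / 2 → (1 + Real.exp y) * 9 ≤ n := by
    intro y hy
    have : Real.exp y ≤ q := eq ▸ Real.exp_le_exp.mpr hy
    nlinarith
  obtain ⟨a0, a1, a2, a3, a4⟩ := exists_param n hn18 (L / 4) (by positivity) (hx _ (by linarith))
  obtain ⟨c0, c1, c2, c3, c4⟩ := exists_param n hn18 (L / 4 + L / 4 / (3 * t)) (by positivity)
    (hx _ (by linarith))
  set R := Real.log (((n:ℝ) ^ 2 - a0) / a0) with hR
  set S := Real.log (((n:ℝ) ^ 2 - c0) / c0) with hS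
  have i1 : (t:ℝ) * (1 / n) ≤ 1 := by rw [mul_one_div, div_le_one (by linarith)]; exact tn
  have i2 : (t:ℝ) * (L / 4 / (3 * t)) = L / 12 := by field_simp; ring
  have i3 : 1 / (n:ℝ) ≤ 1 := by rw [div_le_one (by linarith)]; linarith
  have l1 : L / 12 - 1 ≤ t * (S - R) := by
    have : t * (L / 4 / (3 * t) - 1 / n) ≤ t * (S - R) :=
      mul_le_mul_of_nonneg_left (by linarith) (by positivity)
    linarith [mul_sub (t:ℝ) (L / 4 / (3 * t)) (1 / n)]
  have l2 : t * (S - R) ≤ L / 12 + 1 := by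
    have : t * (S - R) ≤ t * (L / 4 / (3 * t) + 1 / n) :=
      mul_le_mul_of_nonneg_left (by linarith) (by positivity)
    linarith [mul_add (t:ℝ) (L / 4 / (3 * t)) (1 / n)]
  have hRS : R ≤ S := by
    by_contra h
    push Not at h
    have : t * (S - R) ≤ 0 := mul_nonpos_of_nonneg_of_nonpos (by positivity) (by linarith)
    linarith
  have c := core n a0 c0 t (L / 48) (by omega) a1 a2 c1 c2 R S hR hS (by linarith) hRS
    (by linarith) (by linarith) (by exact_mod_cast tp) htn Γ hΓ hout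
  have eS : Real.exp S ≤ q := eq ▸ Real.exp_le_exp.mpr (by linarith)
  have en : Real.exp L = n := Real.exp_log (by linarith)
  rw [Real.rpow_def_of_pos (by linarith)]
  exact num_fin n t L q S _ nR hL hq qq en t1 t2 eS (Nat.cast_nonneg _) c

end Vale.Agent.P346
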