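import Vale.Agent.P346.Lin

namespace Vale.Agent.P346

open Matrix Finset MvPolynomial

set_option linter.unusedSectionVars false

variable {V : Type} [Fintype V] [DecidableEq V]

noncomputable def ind (σ : Finset V) : V →₀ ℕ :=
  Finsupp.equivFunOnFinite.symm (fun v => if v ∈ σ then 1 else 0)

lemma ind_apply (σ : Finset V) (v : V) : ind σ v = if v ∈ σ then 1 else 0 := rfl

lemma ind_inj {σ τ : Finset V} (h : ind σ = ind τ) : σ = τ := by
  ext v
  have := congrArg (fun f => f v) h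
  simp only [ind_apply] at this
  by_cases h1 : v ∈ σ <;> by_cases h2 : v ∈ τ <;> simp_all

lemma eq_ind_of_le {u : V →₀ ℕ} {τ : Finset V} (h : u ≤ ind τ) : u = ind u.support := by
  ext v
  have := h v
  rw [ind_apply] at this ⊢
  simp only [Finsupp.mem_support_iff]
  split_ifs at this ⊢ <;> omega

section ring
variable {K : Type*} [CommRing K]

noncomputable def Mt (f : MvPolynomial V K) : Matrix (Finset V) (Finset V) K :=
  Matrix.of fun τ σ => coeff (ind τ) (f * monomial (ind σ) 1)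

lemma Mt_add (f g : MvPolynomial V K) : Mt (f + g) = Mt f + Mt g := by
  ext τ σ; simp [Mt, add_mul]

lemma Mt_zero : Mt (0 : MvPolynomial V K) = 0 := by ext τ σ; simp [Mt]

lemma Mt_C_mul (c : K) (f : MvPolynomial V K) : Mt (C c * f) = c • Mt f := by
  ext τ σ; simp [Mt, mul_assoc, coeff_C_mul]

lemma coeff_ind_mul (τ : Finset V) (f h : MvPolynomial V K) :
    coeff (ind τ) (f * h) = ∑ ρ, coeff (ind τ) (f * monomial (ind ρ) 1) * coeff (ind ρ) h := by
  induction h using MvPolynomial.induction_on' with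
  | monomial u c =>
    by_cases hu : ∃ ρ0, u = ind ρ0
    · obtain ⟨ρ0, rfl⟩ := hu
      rw [Finset.sum_eq_single ρ0]
      · rw [coeff_mul_monomial', coeff_mul_monomial', coeff_monomial, if_pos rfl]
        split_ifs <;> simp
      · intro ρ _ hρ
        rw [coeff_monomial, if_neg (fun h => hρ (ind_inj h).symm), mul_zero]
      · simp
    · rw [coeff_mul_monomial', if_neg (fun h => hu ⟨_, eq_ind_of_le h⟩)]
      symm
      refine Finset.sum_eq_zero fun ρ _ => ?_
      rw [coeff_monomial, if_neg (fun h => hu ⟨ρ, h⟩), mul_zero]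
  | add p q hp hq =>
    rw [mul_add, coeff_add, hp, hq, ← Finset.sum_add_distrib]
    refine Finset.sum_congr rfl fun ρ _ => by rw [coeff_add, mul_add]

lemma Mt_mul (f g : MvPolynomial V K) : Mt (f * g) = Mt f * Mt g := by
  ext τ σ
  simp only [Mt, Matrix.of_apply, Matrix.mul_apply]
  rw [mul_assoc, coeff_ind_mul]

lemma Mt_ne_zero {f : MvPolynomial V K} {τ σ : Finset V} (h : Mt f τ σ ≠ 0) :
    ∃ u ∈ f.support, ind τ = u + ind σ := by
  simp only [Mt, Matrix.of_apply] at h
  rw [coeff_mul_monomial'] at h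
  split_ifs at h with h1
  · refine ⟨ind τ - ind σ, ?_, (tsub_add_cancel_of_le h1).symm⟩
    rw [mem_support_iff]; simpa using h
  · exact absurd rfl h

lemma Mt_monomial (u : V →₀ ℕ) (τ σ : Finset V) :
    Mt (monomial u (1 : K)) τ σ = if ind τ = u + ind σ then 1 else 0 := by
  simp only [Mt, Matrix.of_apply, monomial_mul, mul_one, coeff_monomial, eq_comm]

end ring

/-- parameters of the measure -/
structure Par (V : Type) where
  Y : Finset V
  R : ℝ
  S : ℝ
  a : ℕ
  b : ℕ
  k : ℕ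
  k' : ℕ

namespace Par

variable (P : Par V)

def cy (ρ : Finset V) : ℕ := (ρ ∩ P.Y).card
def cz (ρ : Finset V) : ℕ := (ρ \ P.Y).card
def dy (u : V →₀ ℕ) : ℕ := ∑ v ∈ P.Y, u v
def dz (u : V →₀ ℕ) : ℕ := ∑ v ∈ P.Yᶜ, u v
noncomputable def wt (u : V →₀ ℕ) : ℝ := P.dy u * P.R - P.dz u * P.S

lemma dy_add (u u' : V →₀ ℕ) : P.dy (u + u') = P.dy u + P.dy u' := by
  simp [dy, Finset.sum_add_distrib]
lemma dz_add (u u' : V →₀ ℕ) : P.dz (u + u') = P.dz u + P.dz u' := by
  simp [dz, Finset.sum_add_distrib]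
lemma wt_add (u u' : V →₀ ℕ) : P.wt (u + u') = P.wt u + P.wt u' := by
  simp only [wt, dy_add, dz_add]; push_cast; ring
lemma dy_ind (ρ : Finset V) : P.dy (ind ρ) = P.cy ρ := by
  simp only [dy, cy, ind_apply]; rw [Finset.sum_boole]; simp [Finset.filter_mem_eq_inter, Finset.inter_comm]
lemma dz_ind (ρ : Finset V) : P.dz (ind ρ) = P.cz ρ := by
  simp only [dz, cz, ind_apply]; rw [Finset.sum_boole]
  simp only [Finset.filter_mem_eq_inter, Nat.cast_id]
  congr 1; ext v; simp [and_comm]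

def lay (a b : ℕ) : Finset (Finset V) := univ.filter fun ρ => P.cy ρ = a ∧ P.cz ρ = b

variable {K : Type*} [Field K]

noncomputable def Pr (K : Type*) [Field K] (a b : ℕ) : Matrix (Finset V) (Finset V) K :=
  diagonal fun ρ => if ρ ∈ P.lay a b then 1 else 0

noncomputable def mu (f : MvPolynomial V K) : ℕ :=
  (P.Pr K (P.a + P.k) (P.b + P.k') * Mt f * P.Pr K P.a P.b).rank

lemma mu_add (f g : MvPolynomial V K) : P.mu (f + g) ≤ P.mu f + P.mu g := by
  unfold mu; rw [Mt_add, Matrix.mul_add, Matrix.add_mul]; exact rank_add_le' _ _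

lemma mu_zero : P.mu (0 : MvPolynomial V K) = 0 := by
  unfold mu; rw [Mt_zero]; simp

lemma mu_C_mul (c : K) (f : MvPolynomial V K) : P.mu (C c * f) ≤ P.mu f := by
  unfold mu; rw [Mt_C_mul, Matrix.mul_smul, Matrix.smul_mul]; exact rank_smul_le' _ _

lemma mu_sum {ι : Type*} (s : Finset ι) (f : ι → MvPolynomial V K) (B : ℝ)
    (h : ∀ i ∈ s, (P.mu (f i) : ℝ) ≤ B) : (P.mu (∑ i ∈ s, f i) : ℝ) ≤ s.card * B := by
  classical
  induction s using Finset.induction_on with
  | empty => simp [mu_zero]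
  | insert i s hi ih =>
    rw [Finset.sum_insert hi, Finset.card_insert_of_notMem hi]
    have h1 := P.mu_add (f i) (∑ j ∈ s, f j)
    have h2 := ih fun j hj => h j (Finset.mem_insert_of_mem hj)
    have h3 := h i (Finset.mem_insert_self _ _)
    have h4 : (P.mu (f i + ∑ j ∈ s, f j) : ℝ) ≤ P.mu (f i) + P.mu (∑ j ∈ s, f j) := by
      exact_mod_cast h1
    push_cast; linarith

/-- intermediate sets of small potential -/
noncomputable def mid (x : ℝ) : Finset (Finset V) :=
  ((range (P.k + 1) ×ˢ range (P.k' + 1)).filter fun pq => pq.1 * P.R - pq.2 * P.S ≤ x).biUnion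
    fun pq => P.lay (P.a + pq.1) (P.b + pq.2)

def Up (f : MvPolynomial V K) (x : ℝ) : Prop := ∀ u ∈ f.support, x ≤ P.wt u
def Dn (f : MvPolynomial V K) (x : ℝ) : Prop := ∀ u ∈ f.support, P.wt u ≤ -x

lemma mu_mid (G H : MvPolynomial V K) (x : ℝ)
    (h : ∀ u ∈ G.support, ∀ u' ∈ H.support, P.dy u + P.dy u' = P.k → P.dz u + P.dz u' = P.k' →
      P.wt u' ≤ x) : P.mu (G * H) ≤ (P.mid x).card := by
  unfold mu
  rw [Mt_mul, ← Matrix.mul_assoc, Matrix.mul_assoc]
  refine rank_bottleneck _ _ _ fun ρ hρ τ σ => ?_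
  by_contra hne
  obtain ⟨h1, h2⟩ := mul_ne_zero_iff.mp hne
  unfold Pr at h1 h2
  rw [diagonal_mul] at h1
  rw [mul_diagonal] at h2
  obtain ⟨h1a, h1b⟩ := mul_ne_zero_iff.mp h1
  obtain ⟨h2a, h2b⟩ := mul_ne_zero_iff.mp h2
  have hτ : τ ∈ P.lay (P.a + P.k) (P.b + P.k') := by by_contra h; simp [h] at h1a
  have hσ : σ ∈ P.lay P.a P.b := by by_contra h; simp [h] at h2b
  obtain ⟨u, hu, e1⟩ := Mt_ne_zero h1b
  obtain ⟨u', hu', e2⟩ := Mt_ne_zero h2a
  simp only [lay, Finset.mem_filter, Finset.mem_univ, true_and] at hτ hσ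
  have a1 := congrArg P.dy e1
  have a2 := congrArg P.dz e1
  have a3 := congrArg P.dy e2
  have a4 := congrArg P.dz e2
  rw [dy_add, dy_ind, dy_ind] at a1 a3
  rw [dz_add, dz_ind, dz_ind] at a2 a4
  apply hρ
  simp only [mid, Finset.mem_biUnion, Finset.mem_filter, Finset.mem_product, Finset.mem_range, lay,
    Finset.mem_univ, true_and]
  refine ⟨(P.dy u', P.dz u'), ⟨⟨by omega, by omega⟩, h u hu u' hu' (by omega) (by omega)⟩,
    by omega, by omega⟩

lemma mu_dn (G H : MvPolynomial V K) (x : ℝ) (h : P.Dn H x) : P.mu (G * H) ≤ (P.mid (-x)).card :=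
  P.mu_mid G H _ fun _ _ u' hu' _ _ => h u' hu'

lemma mu_up (G H : MvPolynomial V K) (x : ℝ) (h : P.Up G x) :
    P.mu (G * H) ≤ (P.mid (P.k * P.R - P.k' * P.S - x)).card :=
  P.mu_mid G H _ fun u hu u' _ h1 h2 => by
    have := h u hu
    unfold wt at this ⊢
    rw [← h1, ← h2]; push_cast; linarith

lemma Up.mul {f g : MvPolynomial V K} {x y : ℝ} (hf : P.Up f x) (hg : P.Up g y) :
    P.Up (f * g) (x + y) := by
  intro u hu
  obtain ⟨u1, h1, u2, h2, rfl⟩ := Finset.mem_add.mp (support_mul f g hu)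
  rw [wt_add]; exact add_le_add (hf _ h1) (hg _ h2)

lemma Dn.mul {f g : MvPolynomial V K} {x y : ℝ} (hf : P.Dn f x) (hg : P.Dn g y) :
    P.Dn (f * g) (x + y) := by
  intro u hu
  obtain ⟨u1, h1, u2, h2, rfl⟩ := Finset.mem_add.mp (support_mul f g hu)
  rw [wt_add]; have := hf _ h1; have := hg _ h2; linarith

lemma wt_zero : P.wt 0 = 0 := by simp [wt, dy, dz]

lemma up_one : P.Up (1 : MvPolynomial V K) 0 := by
  intro u hu
  have : u = 0 := by
    rw [mem_support_iff, coeff_one] at hu; by_contra h; exact hu (if_neg (Ne.symm h))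
  rw [this, wt_zero]
lemma dn_one : P.Dn (1 : MvPolynomial V K) 0 := by
  intro u hu
  have : u = 0 := by
    rw [mem_support_iff, coeff_one] at hu; by_contra h; exact hu (if_neg (Ne.symm h))
  rw [this, wt_zero, neg_zero]

def Gap (G : ℝ) (f : MvPolynomial V K) : Prop := ∀ u ∈ f.support, G ≤ P.wt u ∨ P.wt u ≤ -G

lemma gap_split {G : ℝ} {f : MvPolynomial V K} (h : P.Gap G f) :
    ∃ f1 f2, f = f1 + f2 ∧ P.Up f1 G ∧ P.Dn f2 G := by
  classical
  have hs : ∀ (s : Finset (V →₀ ℕ)), ∀ u ∈ (∑ w ∈ s, monomial w (coeff w f)).support, u ∈ s := by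
    intro s u hu
    have := support_sum hu
    obtain ⟨w, hw, h2⟩ := Finset.mem_biUnion.mp this
    have := support_monomial_subset h2
    rw [Finset.mem_singleton] at this; rwa [this]
  refine ⟨∑ w ∈ f.support.filter (fun u => G ≤ P.wt u), monomial w (coeff w f),
    ∑ w ∈ f.support.filter (fun u => ¬ G ≤ P.wt u), monomial w (coeff w f), ?_, ?_, ?_⟩
  · rw [Finset.sum_filter_add_sum_filter_not]; exact f.as_sum
  · intro u hu; exact (Finset.mem_filter.mp (hs _ u hu)).2
  · intro u hu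
    have := Finset.mem_filter.mp (hs _ u hu)
    exact (h u this.1).resolve_left this.2

lemma mu_gap (Bd : ℝ → ℝ) (hB : ∀ x y, x ≤ y → ((P.mid x).card : ℝ) ≤ Bd y) (E G : ℝ) (hE0 : 0 ≤ E)
    (hE : P.k * P.R - P.k' * P.S ≤ E) (L : List (MvPolynomial V K)) (hL : ∀ f ∈ L, P.Gap G f)
    (H : MvPolynomial V K) : ∀ (A N : MvPolynomial V K) (x y : ℝ), P.Up A x → P.Dn N y →
      (P.mu (A * N * L.prod * H) : ℝ) ≤ 2 ^ L.length * Bd (E - (x + y + G * L.length) / 2) := by
  induction L with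
  | nil =>
    intro A N x y hA hN
    simp only [List.prod_nil, mul_one, List.length_nil, pow_zero, one_mul, Nat.cast_zero, mul_zero,
      add_zero]
    rcases le_total x y with h | h
    · have := P.mu_dn (A * H) N y hN
      rw [show A * N * H = A * H * N by ring]
      exact le_trans (by exact_mod_cast this) (hB _ _ (by linarith))
    · have := P.mu_up A (N * H) x hA
      rw [mul_assoc]
      exact le_trans (by exact_mod_cast this) (hB _ _ (by linarith))
  | cons f L ih =>
    intro A N x y hA hN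
    obtain ⟨f1, f2, rfl, h1, h2⟩ := P.gap_split (hL f List.mem_cons_self)
    have ih' := ih fun g hg => hL g (List.mem_cons_of_mem _ hg)
    have i1 := ih' (A * f1) N _ _ (Up.mul P hA h1) hN
    have i2 := ih' A (N * f2) _ _ hA (Dn.mul P hN h2)
    have e : A * N * ((f1 + f2) :: L).prod * H = A * f1 * N * L.prod * H + A * (N * f2) * L.prod * H := by
      rw [List.prod_cons]; ring
    rw [e]
    have h4 : (P.mu (A * f1 * N * L.prod * H + A * (N * f2) * L.prod * H) : ℝ) ≤
        P.mu (A * f1 * N * L.prod * H) + P.mu (A * (N * f2) * L.prod * H) := by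
      exact_mod_cast P.mu_add _ _
    have e1 : x + G + y + G * L.length = x + y + G * ((f1 + f2) :: L).length := by
      simp only [List.length_cons]; push_cast; ring
    have e2 : x + (y + G) + G * L.length = x + y + G * ((f1 + f2) :: L).length := by
      simp only [List.length_cons]; push_cast; ring
    rw [e1] at i1; rw [e2] at i2
    rw [List.length_cons, pow_succ] at *
    linarith

lemma gap_of_hom {f : MvPolynomial V K} {e t : ℕ} {G : ℝ} (hf : f.IsHomogeneous e)
    (hRS : P.R ≤ P.S) (h1 : G ≤ P.R - t * (P.S - P.R)) (h2 : G ≤ t * (P.S - P.R) / 2) (hR : 0 ≤ P.R)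
    (he : e = 1 ∨ (t ≤ e ∧ e ≤ 2 * t)) : P.Gap G f := by
  intro u hu
  have hd : P.dy u + P.dz u = e := by
    have := hf (mem_support_iff.mp hu)
    rw [← this, dy, dz, Finset.sum_add_sum_compl, Finsupp.weight_apply, Finsupp.sum_fintype]
    · simp
    · simp
  unfold wt
  set p := P.dy u
  set q := P.dz u
  have ht0 : (0:ℝ) ≤ t * (P.S - P.R) := mul_nonneg (by positivity) (by linarith)
  rcases he with rfl | ⟨he1, he2⟩
  · rcases (by omega : (p = 1 ∧ q = 0) ∨ (p = 0 ∧ q = 1)) with ⟨a, b⟩ | ⟨a, b⟩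
    · left; rw [a, b]; simp; linarith
    · right; rw [a, b]; simp; linarith
  · by_cases hpq : q < p
    · left
      have a1 : (q:ℝ) + 1 ≤ p := by exact_mod_cast hpq
      have a2 : (q:ℝ) ≤ t := by exact_mod_cast (by omega : q ≤ t)
      nlinarith
    · right
      have a1 : (p:ℝ) ≤ q := by exact_mod_cast not_lt.mp hpq
      have a2 : (t:ℝ) ≤ 2 * q := by exact_mod_cast (by omega : t ≤ 2 * q)
      nlinarith

end Par

end Vale.Agent.P346
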