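import Vale.Agent.P346.Count
import Vale.Agent.P346.Defs

namespace Vale.Agent.P346

open Finset Matrix MvPolynomial

set_option linter.unusedSectionVars false

section general
variable {V : Type} [Fintype V] [DecidableEq V] {Q : Type} [Fintype Q] [DecidableEq Q]

noncomputable def ee (val : Q → Prop) [DecidablePred val] (G : Q → Finset V) (π : Q)
    (τ σ : Finset V) : ℤ := if val π ∧ ind τ = ind (G π) + ind σ then 1 else 0

noncomputable def F0 (Rw Cl : Finset (Finset V)) (val : Q → Prop) [DecidablePred val]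
    (G : Q → Finset V) : Matrix (Finset V) (Finset V) ℤ :=
  Matrix.of fun τ σ => if τ ∈ Rw ∧ σ ∈ Cl then ∑ π, ee val G π τ σ else 0

variable (Rw Cl : Finset (Finset V)) (val : Q → Prop) [DecidablePred val] (G : Q → Finset V)

lemma ee_nonneg (π : Q) (τ σ : Finset V) : 0 ≤ ee val G π τ σ := by
  unfold ee; split_ifs <;> norm_num

lemma ind_union {σ G : Finset V} (h : Disjoint σ G) : ind (σ ∪ G) = ind G + ind σ := by
  ext v
  have := fun hv : v ∈ σ => Finset.disjoint_left.mp h hv
  simp only [Finsupp.add_apply, ind_apply, Finset.mem_union]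
  by_cases h1 : v ∈ σ <;> by_cases h2 : v ∈ G <;> simp_all

lemma tr1 (h : ∀ π, val π → ∀ σ ∈ Cl, Disjoint σ (G π) → σ ∪ G π ∈ Rw) :
    ∑ π ∈ univ.filter val, ((Cl.filter fun σ => Disjoint σ (G π)).card : ℤ) ≤
      ((F0 Rw Cl val G)ᵀ * F0 Rw Cl val G).trace := by
  simp only [Matrix.trace, Matrix.diag, Matrix.mul_apply, Matrix.transpose_apply]
  calc _ = ∑ π, ∑ σ, (if val π ∧ σ ∈ Cl ∧ Disjoint σ (G π) then (1:ℤ) else 0) := by
        rw [Finset.sum_filter]
        refine Finset.sum_congr rfl fun π _ => ?_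
        split_ifs with hv
        · simp only [hv, true_and]; rw [Finset.sum_boole]; congr 2; ext σ; simp
        · simp [hv]
    _ ≤ ∑ π, ∑ σ, ∑ τ, (if τ ∈ Rw ∧ σ ∈ Cl then ee val G π τ σ else 0) := by
        refine Finset.sum_le_sum fun π _ => Finset.sum_le_sum fun σ _ => ?_
        have nn : ∀ τ, 0 ≤ (if τ ∈ Rw ∧ σ ∈ Cl then ee val G π τ σ else 0) := by
          intro τ; split_ifs; exacts [ee_nonneg _ _ _ _ _, le_rfl]
        split_ifs with hc
        · refine le_trans ?_ (Finset.single_le_sum (fun τ _ => nn τ) (Finset.mem_univ (σ ∪ G π)))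
          rw [if_pos ⟨h π hc.1 σ hc.2.1 hc.2.2, hc.2.1⟩, ee, if_pos ⟨hc.1, ind_union hc.2.2⟩]
        · exact Finset.sum_nonneg fun τ _ => nn τ
    _ = ∑ σ, ∑ τ, F0 Rw Cl val G τ σ := by
        rw [Finset.sum_comm]
        refine Finset.sum_congr rfl fun σ _ => ?_
        rw [Finset.sum_comm]
        refine Finset.sum_congr rfl fun τ _ => ?_
        simp only [F0, Matrix.of_apply]; split_ifs <;> simp
    _ ≤ _ := by
        refine Finset.sum_le_sum fun σ _ => Finset.sum_le_sum fun τ _ => ?_
        rw [← sq]; exact Int.le_self_sq _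

def Cond (q : Q × Q × Q × Q) (σ : Finset V) : Prop :=
  val q.1 ∧ val q.2.1 ∧ val q.2.2.1 ∧ val q.2.2.2 ∧ ∃ σ' τ τ' : Finset V,
    ind τ = ind (G q.1) + ind σ ∧ ind τ = ind (G q.2.1) + ind σ' ∧
    ind τ' = ind (G q.2.2.1) + ind σ' ∧ ind τ' = ind (G q.2.2.2) + ind σ

open Classical in
lemma tr2 : (((F0 Rw Cl val G)ᵀ * F0 Rw Cl val G) * ((F0 Rw Cl val G)ᵀ * F0 Rw Cl val G)).trace ≤
    ∑ q : Q × Q × Q × Q, ((Cl.filter fun σ => Cond val G q σ).card : ℤ) := by
  set F := F0 Rw Cl val G with hF
  have n0 : ∀ τ σ, 0 ≤ ∑ π, ee val G π τ σ := fun τ σ =>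
    Finset.sum_nonneg fun π _ => ee_nonneg _ _ _ _ _
  have F1 : ∀ τ σ, 0 ≤ F τ σ := by
    intro τ σ; simp only [hF, F0, Matrix.of_apply]; split_ifs; exacts [n0 _ _, le_rfl]
  have F2 : ∀ τ σ, F τ σ ≤ ∑ π, ee val G π τ σ := by
    intro τ σ; simp only [hF, F0, Matrix.of_apply]; split_ifs; exacts [le_rfl, n0 _ _]
  have F3 : ∀ τ σ, σ ∉ Cl → F τ σ = 0 := by
    intro τ σ h; simp only [hF, F0, Matrix.of_apply]; rw [if_neg (fun h' => h h'.2)]
  simp only [Matrix.trace, Matrix.diag, Matrix.mul_apply, Matrix.transpose_apply]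
  calc _ = ∑ σ, ∑ x : Finset V × Finset V × Finset V,
          F x.2.1 σ * F x.2.1 x.1 * (F x.2.2 x.1 * F x.2.2 σ) := by
        refine Finset.sum_congr rfl fun σ _ => ?_
        simp only [Fintype.sum_prod_type, Finset.sum_mul_sum]
    _ ≤ ∑ σ, ∑ x : Finset V × Finset V × Finset V, ∑ q : Q × Q × Q × Q,
          (if σ ∈ Cl then ee val G q.1 x.2.1 σ * ee val G q.2.1 x.2.1 x.1 *
            (ee val G q.2.2.1 x.2.2 x.1 * ee val G q.2.2.2 x.2.2 σ) else 0) := by
        refine Finset.sum_le_sum fun σ _ => Finset.sum_le_sum fun x _ => ?_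
        split_ifs with hc
        · calc _ ≤ (∑ π, ee val G π x.2.1 σ) * (∑ π, ee val G π x.2.1 x.1) *
                ((∑ π, ee val G π x.2.2 x.1) * (∑ π, ee val G π x.2.2 σ)) :=
              mul_le_mul (mul_le_mul (F2 _ _) (F2 _ _) (F1 _ _) (n0 _ _))
                (mul_le_mul (F2 _ _) (F2 _ _) (F1 _ _) (n0 _ _)) (mul_nonneg (F1 _ _) (F1 _ _))
                (mul_nonneg (n0 _ _) (n0 _ _))
            _ = _ := by
              symm
              simp only [Fintype.sum_prod_type, ← Finset.sum_mul, ← Finset.mul_sum]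
        · rw [F3 _ _ hc]; simp
    _ = ∑ q : Q × Q × Q × Q, ∑ σ, ∑ x : Finset V × Finset V × Finset V,
          (if σ ∈ Cl then ee val G q.1 x.2.1 σ * ee val G q.2.1 x.2.1 x.1 *
            (ee val G q.2.2.1 x.2.2 x.1 * ee val G q.2.2.2 x.2.2 σ) else 0) := by
        rw [Finset.sum_comm (s := (univ : Finset (Q × Q × Q × Q)))]
        refine Finset.sum_congr rfl fun σ _ => Finset.sum_comm
    _ ≤ _ := by
        refine Finset.sum_le_sum fun q _ => ?_
        have e : ((Cl.filter fun σ => Cond val G q σ).card : ℤ) =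
            ∑ σ, (if σ ∈ Cl ∧ Cond val G q σ then (1:ℤ) else 0) := by
          rw [Finset.sum_boole]; congr 2; ext σ; simp
        rw [e]
        refine Finset.sum_le_sum fun σ _ => ?_
        by_cases hc : σ ∈ Cl
        · simp only [hc, if_true, true_and]
          have hz : ∀ x : Finset V × Finset V × Finset V,
              ee val G q.1 x.2.1 σ * ee val G q.2.1 x.2.1 x.1 *
              (ee val G q.2.2.1 x.2.2 x.1 * ee val G q.2.2.2 x.2.2 σ) =
              if (val q.1 ∧ ind x.2.1 = ind (G q.1) + ind σ) ∧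
                (val q.2.1 ∧ ind x.2.1 = ind (G q.2.1) + ind x.1) ∧
                (val q.2.2.1 ∧ ind x.2.2 = ind (G q.2.2.1) + ind x.1) ∧
                (val q.2.2.2 ∧ ind x.2.2 = ind (G q.2.2.2) + ind σ) then 1 else 0 := by
            intro x; unfold ee; simp only [ite_and]; split_ifs <;> simp
          simp only [hz]
          rw [Finset.sum_boole]
          split_ifs with h2
          · have : (univ.filter fun x : Finset V × Finset V × Finset V =>
                (val q.1 ∧ ind x.2.1 = ind (G q.1) + ind σ) ∧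
                (val q.2.1 ∧ ind x.2.1 = ind (G q.2.1) + ind x.1) ∧
                (val q.2.2.1 ∧ ind x.2.2 = ind (G q.2.2.1) + ind x.1) ∧
                (val q.2.2.2 ∧ ind x.2.2 = ind (G q.2.2.2) + ind σ)).card ≤ 1 := by
              refine Finset.card_le_one.mpr fun x hx y hy => ?_
              simp only [Finset.mem_filter, Finset.mem_univ, true_and] at hx hy
              have a1 : x.2.1 = y.2.1 := ind_inj (hx.1.2.trans hy.1.2.symm)
              have a2 : x.2.2 = y.2.2 := ind_inj (hx.2.2.2.2.trans hy.2.2.2.2.symm)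
              have a3 : x.1 = y.1 := by
                apply ind_inj
                have := hx.2.1.2; rw [a1, hy.2.1.2] at this
                exact (add_left_cancel this).symm
              exact Prod.ext a3 (Prod.ext a1 a2)
            exact_mod_cast this
          · rw [Finset.filter_eq_empty_iff.mpr]; · simp
            intro x _ hx
            exact h2 ⟨hx.1.1, hx.2.1.1, hx.2.2.1.1, hx.2.2.2.1, x.1, x.2.1, x.2.2, hx.1.2, hx.2.1.2,
              hx.2.2.1.2, hx.2.2.2.2⟩
        · simp [hc]

end general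

abbrev Var (n : ℕ) := Fin n × Fin n × Fin n
abbrev Path (n : ℕ) := Fin (n + 1) → Fin n

variable {n : ℕ}

def edge (π : Path n) (l : Fin n) : Var n := (l, π l.castSucc, π l.succ)
def Gp (π : Path n) : Finset (Var n) := univ.image (edge π)
def valid (π : Path n) : Prop := (π 0).val = 0 ∧ (π (Fin.last n)).val = 0
instance : DecidablePred (valid (n := n)) := fun π => by unfold valid; infer_instance

lemma edge_inj (π : Path n) : Function.Injective (edge π) := fun _ _ h => congrArg Prod.fst h

lemma mem_Gp {π : Path n} {v : Var n} : v ∈ Gp π ↔ v = edge π v.1 := by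
  unfold Gp; simp only [Finset.mem_image, Finset.mem_univ, true_and]
  constructor
  · rintro ⟨l, rfl⟩; rfl
  · intro h; exact ⟨_, h.symm⟩

lemma prod_X_eq {K : Type*} [CommRing K] (π : Path n) :
    ∏ l : Fin n, (X (l, π l.castSucc, π l.succ) : MvPolynomial (Var n) K) =
      monomial (ind (Gp π)) 1 := by
  have : ind (Gp π) = ∑ l : Fin n, Finsupp.single (edge π l) 1 := by
    ext v
    rw [ind_apply, Finsupp.finsetSum_apply]
    simp only [Finsupp.single_apply, mem_Gp]
    rw [Finset.sum_eq_single v.1]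
    · simp only [eq_comm]
    · intro l _ hl; rw [if_neg]; intro h; exact hl (congrArg Prod.fst h)
    · simp
  rw [this, monomial_sum_one]; rfl

lemma Mt_sum {K : Type*} [CommRing K] {ι : Type*} (s : Finset ι) (f : ι → MvPolynomial (Var n) K) :
    Mt (∑ i ∈ s, f i) = ∑ i ∈ s, Mt (f i) := by
  classical
  induction s using Finset.induction_on with
  | empty => simp [Mt_zero]
  | insert i s hi ih => rw [Finset.sum_insert hi, Finset.sum_insert hi, Mt_add, ih]

lemma mu_IMM {K : Type*} [Field K] (P : Par (Var n)) : P.mu (IMM K n) =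
    ((F0 (P.lay (P.a + P.k) (P.b + P.k')) (P.lay P.a P.b) valid Gp).map (Int.cast : ℤ → K)).rank := by
  unfold Par.mu; congr 1
  ext τ σ
  unfold Par.Pr
  rw [mul_diagonal, diagonal_mul, IMM, Mt_sum, Matrix.sum_apply]
  have : ∀ π : Path n, Mt (if (π 0).val = 0 ∧ (π (Fin.last n)).val = 0 then
      ∏ l : Fin n, (X (l, π l.castSucc, π l.succ) : MvPolynomial (Var n) K) else 0) τ σ =
      ((ee valid Gp π τ σ : ℤ) : K) := by
    intro π; unfold ee
    by_cases hv : valid π
    · rw [if_pos (show (π 0).val = 0 ∧ (π (Fin.last n)).val = 0 from hv), prod_X_eq, Mt_monomial]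
      simp [hv]
    · rw [if_neg (show ¬ ((π 0).val = 0 ∧ (π (Fin.last n)).val = 0) from hv), Mt_zero]; simp [hv]
  simp only [this, F0, Matrix.map_apply, Matrix.of_apply]
  by_cases h1 : τ ∈ P.lay (P.a + P.k) (P.b + P.k') <;> by_cases h2 : σ ∈ P.lay P.a P.b <;>
    simp [h1, h2]

lemma IMM_hom {K : Type*} [CommRing K] : (IMM K n).IsHomogeneous n := by
  refine IsHomogeneous.sum _ _ _ fun π _ => ?_
  split_ifs
  · have := IsHomogeneous.prod (univ : Finset (Fin n))
      (fun l => (X (l, π l.castSucc, π l.succ) : MvPolynomial (Var n) K)) (fun _ => 1)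
      fun _ _ => isHomogeneous_X _ _
    simpa using this
  · exact isHomogeneous_zero _ _ _

lemma card_valid [NeZero n] : n ^ (n + 1) ≤ (univ.filter (valid (n := n))).card * n ^ 2 := by
  have h1 : (univ : Finset (Path n)).card ≤
      ((univ.filter (valid (n := n))) ×ˢ (univ : Finset (Fin n × Fin n))).card := by
    refine Finset.card_le_card_of_injOn
      (fun π => (Function.update (Function.update π 0 0) (Fin.last n) 0, π 0, π (Fin.last n))) ?_ ?_
    · intro π _
      simp only [Finset.coe_product, Set.mem_prod, Finset.mem_coe, Finset.mem_filter,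
        Finset.mem_univ, true_and, and_true, valid, Function.update_self, Fin.val_zero]
      by_cases h : (0 : Fin (n + 1)) = Fin.last n
      · rw [h]; simp
      · rw [Function.update_of_ne h]; simp
    · intro π _ π' _ h
      simp only [Prod.mk.injEq] at h
      ext1 i
      by_cases h1 : i = Fin.last n
      · rw [h1]; exact h.2.2
      · by_cases h2 : i = 0
        · rw [h2]; exact h.2.1
        · have := congrFun h.1 i
          simpa [Function.update_of_ne h1, Function.update_of_ne h2] using this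
  simpa [sq] using h1

lemma cond_layer {q : Path n × Path n × Path n × Path n} {σ : Finset (Var n)}
    (h : Cond valid Gp q σ) :
    (∀ l, (edge q.1 l = edge q.2.1 l ∧ edge q.2.2.1 l = edge q.2.2.2 l) ∨
      (edge q.1 l = edge q.2.2.2 l ∧ edge q.2.1 l = edge q.2.2.1 l)) ∧
    σ ∩ (Gp q.1 ∪ Gp q.2.2.1) = (Gp q.1 ∪ Gp q.2.2.1).filter
      fun v => v = edge q.2.2.1 v.1 ∧ edge q.1 v.1 ≠ edge q.2.1 v.1 := by
  obtain ⟨_, _, _, _, σ', τ, τ', h1, h2, h3, h4⟩ := h
  have a1 := fun v => congrArg (fun f => f v) h1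
  have a2 := fun v => congrArg (fun f => f v) h2
  have a3 := fun v => congrArg (fun f => f v) h3
  have a4 := fun v => congrArg (fun f => f v) h4
  simp only [Finsupp.add_apply, ind_apply, mem_Gp] at a1 a2 a3 a4
  have key : ∀ v : Var n, (if v = edge q.1 v.1 then 1 else 0) + (if v = edge q.2.2.1 v.1 then 1 else 0)
      = (if v = edge q.2.1 v.1 then 1 else 0) + (if v = edge q.2.2.2 v.1 then 1 else 0) := by
    intro v; have := a1 v; have := a2 v; have := a3 v; have := a4 v; omega
  have lay : ∀ l, (edge q.1 l = edge q.2.1 l ∧ edge q.2.2.1 l = edge q.2.2.2 l) ∨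
      (edge q.1 l = edge q.2.2.2 l ∧ edge q.2.1 l = edge q.2.2.1 l) := by
    intro l
    have k1 := key (edge q.1 l)
    have k2 := key (edge q.2.1 l)
    have k3 := key (edge q.2.2.1 l)
    have k4 := key (edge q.2.2.2 l)
    have f : ∀ π : Path n, (edge π l).1 = l := fun _ => rfl
    simp only [f, if_true] at k1 k2 k3 k4
    generalize edge q.1 l = e1 at *
    generalize edge q.2.1 l = e2 at *
    generalize edge q.2.2.1 l = e3 at *
    generalize edge q.2.2.2 l = e4 at *
    by_cases c1 : e1 = e2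
    · subst c1
      by_cases c2 : e3 = e4
      · exact Or.inl ⟨rfl, c2⟩
      · simp [c2] at k3
    · by_cases c2 : e1 = e4
      · subst c2
        by_cases c3 : e2 = e3
        · exact Or.inr ⟨rfl, c3⟩
        · simp [c3, Ne.symm c1] at k2
      · simp [c1, c2] at k1
  refine ⟨lay, ?_⟩
  ext v
  simp only [Finset.mem_inter, Finset.mem_filter, Finset.mem_union, mem_Gp]
  have b1 := a1 v
  have b2 := a2 v
  have b4 := a4 v
  have b5 := lay v.1
  generalize edge q.1 v.1 = e1 at *
  generalize edge q.2.1 v.1 = e2 at *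
  generalize edge q.2.2.1 v.1 = e3 at *
  generalize edge q.2.2.2 v.1 = e4 at *
  by_cases c1 : v = e1
  · have : v ∉ σ := by intro hv; simp only [c1.symm, hv, if_true] at b1; split_ifs at b1 <;> omega
    simp only [this, false_and, false_iff, not_and, not_not]
    intro _ c3
    rcases b5 with h | h
    · exact h.1
    · rw [h.2, ← c3, c1]
  · by_cases c3 : v = e3
    · by_cases c2 : e1 = e2
      · have e34 : e3 = e4 := by
          rcases b5 with h | h
          · exact h.2
          · exact absurd (c3.trans (h.2.symm.trans c2.symm)) c1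
        have : v ∉ σ := by
          intro hv; rw [if_pos (c3.trans e34), if_pos hv] at b4; split_ifs at b4 <;> omega
        simp [this, c2]
      · have e23 : e2 = e3 := (b5.resolve_left fun h => c2 h.1).2
        have : v ∈ σ := by
          by_contra hv
          rw [if_neg c1, if_neg hv] at b1
          rw [if_pos (c3.trans e23.symm), b1] at b2; omega
        refine ⟨fun h => ⟨h.2, c3, c2⟩, fun h => ⟨this, h.1⟩⟩
    · simp [c1, c3]

end Vale.Agent.P346
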