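import Vale.Agent.P346.Defs

namespace Vale.Agent.P346

open Finset Matrix MvPolynomial

universe u

section mp
variable {A : Type*} [CommRing A] {n : ℕ}

noncomputable def mp (M : ℕ → Matrix (Fin n) (Fin n) A) : ℕ → Matrix (Fin n) (Fin n) A
  | 0 => 1
  | d + 1 => mp M d * M d

lemma mp_add (M : ℕ → Matrix (Fin n) (Fin n) A) (a b : ℕ) :
    mp M (a + b) = mp M a * mp (fun l => M (a + l)) b := by
  induction b with
  | zero => simp [mp]
  | succ b ih => rw [← add_assoc, mp, ih, mp, Matrix.mul_assoc]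

lemma mp_block (M : ℕ → Matrix (Fin n) (Fin n) A) (B T : ℕ) :
    mp M (B * T) = mp (fun j => mp (fun l => M (j * T + l)) T) B := by
  induction B with
  | zero => simp [mp]
  | succ B ih => rw [Nat.succ_mul, mp_add, ih, mp]

lemma mp_one (b : ℕ) : mp (fun _ => (1 : Matrix (Fin n) (Fin n) A)) b = 1 := by
  induction b with
  | zero => rfl
  | succ b ih => rw [mp, ih, Matrix.mul_one]

lemma mp_path (M : ℕ → Matrix (Fin n) (Fin n) A) (d : ℕ) (u v : Fin n) :
    mp M d u v = ∑ p : Fin (d + 1) → Fin n, if p 0 = u ∧ p (Fin.last d) = v then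
      ∏ l : Fin d, M l (p l.castSucc) (p l.succ) else 0 := by
  induction d generalizing v with
  | zero =>
    rw [← (Equiv.funUnique (Fin 1) (Fin n)).symm.sum_comp]
    simp only [mp, Matrix.one_apply]
    rw [Finset.sum_eq_single u] <;> simp +contextual
  | succ d ih =>
    rw [← (Fin.snocEquiv (fun _ : Fin (d + 2) => Fin n)).sum_comp, Fintype.sum_prod_type, mp,
      Matrix.mul_apply]
    have e0 : ∀ (w : Fin n) (p : Fin (d + 1) → Fin n),
        (Fin.snocEquiv (fun _ : Fin (d + 2) => Fin n)) (w, p) 0 = p 0 := fun w p =>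
      Fin.snoc_castSucc (α := fun _ => Fin n) w p 0
    have e1 : ∀ (w : Fin n) (p : Fin (d + 1) → Fin n) (l : Fin (d + 1)),
        (Fin.snocEquiv (fun _ : Fin (d + 2) => Fin n)) (w, p) l.castSucc = p l :=
      fun w p l => Fin.snoc_castSucc (α := fun _ => Fin n) w p l
    have e2 : ∀ (w : Fin n) (p : Fin (d + 1) → Fin n),
        (Fin.snocEquiv (fun _ : Fin (d + 2) => Fin n)) (w, p) (Fin.last (d + 1)) = w :=
      fun w p => Fin.snoc_last (α := fun _ => Fin n) w p
    simp only [Fin.prod_univ_castSucc, e0, Fin.succ_castSucc, e1, Fin.succ_last, e2,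
      Fin.val_castSucc, Fin.val_last]
    symm
    rw [Finset.sum_eq_single v]
    · symm
      simp only [ih, Finset.sum_mul, and_true]
      rw [Finset.sum_comm]
      refine Finset.sum_congr rfl fun p _ => ?_
      rw [Finset.sum_eq_single (p (Fin.last d))]
      · simp
      · intro w _ hw; rw [if_neg (fun h => hw h.2.symm), zero_mul]
      · simp
    · intro w _ hw; exact Finset.sum_eq_zero fun p _ => if_neg fun h => hw h.2
    · simp

end mp

variable (K : Type u) [CommRing K]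

noncomputable def MX (n : ℕ) (l : ℕ) :
    Matrix (Fin n) (Fin n) (MvPolynomial (Fin n × Fin n × Fin n) K) :=
  if h : l < n then Matrix.of fun i j => X (⟨l, h⟩, i, j) else 1

lemma IMM_eq (n : ℕ) [NeZero n] : IMM K n = mp (MX K n) n 0 0 := by
  rw [mp_path, IMM]
  refine Finset.sum_congr rfl fun p _ => ?_
  have : ((p 0).val = 0 ∧ (p (Fin.last n)).val = 0) ↔ (p 0 = 0 ∧ p (Fin.last n) = 0) := by
    simp only [Fin.ext_iff, Fin.val_zero]
  simp only [this]
  congr 1
  refine Finset.prod_congr rfl fun l _ => ?_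
  simp [MX]

lemma mp_pad (n e : ℕ) : mp (MX K n) (n + e) = mp (MX K n) n := by
  rw [mp_add]
  have : (fun l => MX K n (n + l)) = fun _ => 1 := by
    ext1 l; unfold MX; rw [dif_neg (by omega)]
  rw [this, mp_one, Matrix.mul_one]

noncomputable def circ (n B T : ℕ) : Circuit K (Fin n × Fin n × Fin n) where
  L0 := Fin n × Fin n × Fin n
  L1 := Fin n × Fin n × Fin n
  L2 := Fin B × (Fin (T + 1) → Fin n)
  L3 := Fin B × Fin n × Fin n
  L4 := Fin (B + 1) → Fin n
  leaf := Sum.inl
  in1 x := {x}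
  c1 _ _ := 1
  m2 i x := ∑ l : Fin T, if h : i.1 * T + l < n then
    (if x = (⟨_, h⟩, i.2 l.castSucc, i.2 l.succ) then 1 else 0) else 0
  in3 g := univ.filter fun i => i.1 = g.1 ∧ (i.2 0 = g.2.1 ∧ i.2 (Fin.last T) = g.2.2) ∧
    ∀ l : Fin T, ¬ g.1 * T + l < n → i.2 l.castSucc = i.2 l.succ
  c3 _ _ := 1
  m4 p y := ∑ j : Fin B, if y = (j, p j.castSucc, p j.succ) then 1 else 0
  in5 := univ.filter fun p => (p 0).val = 0 ∧ (p (Fin.last B)).val = 0
  c5 _ := 1

variable (n B T : ℕ)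

lemma circ_v2 (i : Fin B × (Fin (T + 1) → Fin n)) : (circ K n B T).v2 i =
    ∏ l : Fin T, if h : i.1 * T + l < n then X (⟨_, h⟩, i.2 l.castSucc, i.2 l.succ) else 1 := by
  have v1 : ∀ x : Fin n × Fin n × Fin n, (circ K n B T).v1 x = X x := by
    intro x; simp [Circuit.v1, Circuit.v0, circ]
  show ∏ x : Fin n × Fin n × Fin n, (circ K n B T).v1 x ^ (∑ l : Fin T, if h : i.1 * T + l < n then
    (if x = (⟨_, h⟩, i.2 l.castSucc, i.2 l.succ) then 1 else 0) else 0) = _
  simp only [v1, ← Finset.prod_pow_eq_pow_sum]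
  rw [Finset.prod_comm]
  refine Finset.prod_congr rfl fun l _ => ?_
  split_ifs with h
  · simp [pow_ite, Finset.prod_ite_eq']
  · simp

lemma circ_v3 (g : Fin B × Fin n × Fin n) : (circ K n B T).v3 g =
    mp (fun l => MX K n (g.1 * T + l)) T g.2.1 g.2.2 := by
  show ∑ i ∈ univ.filter (fun i : Fin B × (Fin (T + 1) → Fin n) => i.1 = g.1 ∧
    (i.2 0 = g.2.1 ∧ i.2 (Fin.last T) = g.2.2) ∧
    ∀ l : Fin T, ¬ g.1 * T + l < n → i.2 l.castSucc = i.2 l.succ), C 1 * (circ K n B T).v2 i = _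
  rw [mp_path, Finset.sum_filter, Fintype.sum_prod_type, Finset.sum_eq_single g.1]
  · refine Finset.sum_congr rfl fun p _ => ?_
    simp only [true_and, C_1, one_mul, circ_v2]
    by_cases h1 : p 0 = g.2.1 ∧ p (Fin.last T) = g.2.2
    · rw [if_pos h1]
      by_cases h2 : ∀ l : Fin T, ¬ g.1 * T + l < n → p l.castSucc = p l.succ
      · rw [if_pos ⟨h1, h2⟩]
        refine Finset.prod_congr rfl fun l _ => ?_
        unfold MX
        split_ifs with h
        · rfl
        · rw [h2 l h, Matrix.one_apply_eq]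
      · rw [if_neg (fun h => h2 h.2)]
        push Not at h2
        obtain ⟨l, hl, hp⟩ := h2
        symm
        refine Finset.prod_eq_zero (Finset.mem_univ l) ?_
        unfold MX
        rw [dif_neg (by omega), Matrix.one_apply_ne hp]
    · rw [if_neg h1, if_neg (fun h => h1 h.1)]
  · intro j _ hj; exact Finset.sum_eq_zero fun p _ => if_neg fun h => hj h.1
  · simp

lemma circ_out [NeZero n] (h : n ≤ B * T) : (circ K n B T).out = IMM K n := by
  obtain ⟨e, he⟩ := Nat.exists_eq_add_of_le h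
  rw [IMM_eq, ← mp_pad K n e, ← he, mp_block, mp_path]
  show ∑ p ∈ univ.filter (fun p : Fin (B + 1) → Fin n => (p 0).val = 0 ∧ (p (Fin.last B)).val = 0),
    C 1 * (circ K n B T).v4 p = _
  rw [Finset.sum_filter]
  refine Finset.sum_congr rfl fun p _ => ?_
  have : ((p 0).val = 0 ∧ (p (Fin.last B)).val = 0) ↔ (p 0 = 0 ∧ p (Fin.last B) = 0) := by
    simp only [Fin.ext_iff, Fin.val_zero]
  simp only [this, C_1, one_mul]
  congr 1
  show ∏ y : Fin B × Fin n × Fin n, (circ K n B T).v3 y ^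
    (∑ j : Fin B, if y = (j, p j.castSucc, p j.succ) then 1 else 0) = _
  simp only [← Finset.prod_pow_eq_pow_sum]
  rw [Finset.prod_comm]
  refine Finset.prod_congr rfl fun j _ => ?_
  simp [pow_ite, Finset.prod_ite_eq', circ_v3]

lemma circ_hom : (circ K n B T).Homogeneous := by
  refine ⟨fun _ => 1, fun g : Fin B × Fin n × Fin n => ∑ l : Fin T, if g.1 * T + l < n then 1 else 0,
    ∑ j : Fin B, ∑ l : Fin T, if j * T + l < n then 1 else 0, fun _ _ _ => rfl, ?_, ?_⟩
  · intro g i hi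
    have hi1 : i.1 = g.1 := (Finset.mem_filter.mp hi).2.1
    show ∑ x : Fin n × Fin n × Fin n, (∑ l : Fin T, if h : i.1 * T + l < n then
      (if x = (⟨_, h⟩, i.2 l.castSucc, i.2 l.succ) then 1 else 0) else 0) * 1 =
      ∑ l : Fin T, if g.1 * T + l < n then 1 else 0
    simp only [mul_one]
    rw [Finset.sum_comm, ← hi1]
    refine Finset.sum_congr rfl fun l _ => ?_
    split_ifs <;> simp
  · intro p _
    show ∑ y : Fin B × Fin n × Fin n, (∑ j : Fin B, if y = (j, p j.castSucc, p j.succ) then 1 else 0) *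
      (∑ l : Fin T, if y.1 * T + l < n then 1 else 0) = _
    simp only [Finset.sum_mul]
    rw [Finset.sum_comm]
    refine Finset.sum_congr rfl fun j _ => ?_
    simp only [ite_mul, one_mul, zero_mul, Finset.sum_ite_eq', Finset.mem_univ, if_true]

lemma circ_ne [NeZero n] (hT : 1 ≤ T) (hB : ∀ j < B, j * T < n) : (circ K n B T).SumsNonempty := by
  refine ⟨fun x => Finset.singleton_nonempty _, fun g : Fin B × Fin n × Fin n => ?_,
    ⟨fun _ => (0 : Fin n), Finset.mem_filter.mpr ⟨Finset.mem_univ _, rfl, rfl⟩⟩⟩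
  refine ⟨(g.1, fun l => if l.val = 0 then g.2.1 else g.2.2),
    Finset.mem_filter.mpr ⟨Finset.mem_univ _, rfl, ⟨by simp, ?_⟩, fun l hl => ?_⟩⟩
  · simp only [Fin.val_last]; rw [if_neg (by omega)]
  · have := hB g.1 g.1.2
    have : l.val ≠ 0 := by intro h; rw [h] at hl; omega
    simp [this]

lemma circ_size : (circ K n B T).size = n ^ 3 + n ^ 3 + B * n ^ (T + 1) + B * n ^ 2 + n ^ (B + 1) + 1 := by
  show Fintype.card (Fin n × Fin n × Fin n) + Fintype.card (Fin n × Fin n × Fin n) +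
    Fintype.card (Fin B × (Fin (T + 1) → Fin n)) + Fintype.card (Fin B × Fin n × Fin n) +
    Fintype.card (Fin (B + 1) → Fin n) + 1 = _
  simp only [Fintype.card_prod, Fintype.card_fin, Fintype.card_fun]; ring

theorem upper_bound (hn : 36 ≤ n) : ∃ Γ : Circuit K (Fin n × Fin n × Fin n),
    Γ.Homogeneous ∧ Γ.SumsNonempty ∧ Γ.out = IMM K n ∧ (Γ.size : ℝ) ≤ (n:ℝ) ^ (2 * √n) := by
  have : NeZero n := ⟨by omega⟩
  set T := Nat.sqrt n + 1 with hT
  set B := (n - 1) / T + 1 with hB
  have T0 : 0 < T := by omega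
  have hTT : n < T * T := Nat.lt_succ_sqrt n
  have d1 := Nat.div_add_mod (n - 1) T
  have d2 := Nat.mod_lt (n - 1) T0
  have hBT : B ≤ T := by
    have : (n - 1) / T < T := (Nat.div_lt_iff_lt_mul T0).mpr (by omega)
    omega
  have hs : 6 ≤ Nat.sqrt n := Nat.le_sqrt.mpr (by omega)
  have hTn : T ≤ n := Nat.sqrt_lt_self (by omega)
  refine ⟨circ K n B T, circ_hom K n B T, circ_ne K n B T T0 fun j hj => ?_,
    circ_out K n B T ?_, ?_⟩
  · have : j * T ≤ (n - 1) / T * T := Nat.mul_le_mul_right _ (by omega)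
    rw [mul_comm ((n - 1) / T)] at this; omega
  · rw [hB, add_mul, mul_comm ((n - 1) / T)]; omega
  · rw [circ_size]
    have p : ∀ a b, a ≤ b → n ^ a ≤ n ^ b := fun a b h => Nat.pow_le_pow_right (by omega) h
    have a1 := p 3 (T + 2) (by omega)
    have a2 : B * n ^ (T + 1) ≤ n ^ (T + 2) := by
      rw [pow_succ n (T + 1), mul_comm]; exact Nat.mul_le_mul_left _ (by omega)
    have a3 : B * n ^ 2 ≤ n ^ (T + 2) := by
      refine le_trans ?_ a1
      rw [pow_succ n 2, mul_comm]; exact Nat.mul_le_mul_left _ (by omega)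
    have a4 := p (B + 1) (T + 2) (by omega)
    have a5 := p 0 (T + 2) (by omega)
    have a6 : 6 * n ^ (T + 2) ≤ n ^ (2 * Nat.sqrt n) := by
      refine le_trans ?_ (p (T + 2 + 1) _ (by omega))
      rw [pow_succ n (T + 2), mul_comm]; exact Nat.mul_le_mul_left _ (by omega)
    have a7 : n ^ 3 + n ^ 3 + B * n ^ (T + 1) + B * n ^ 2 + n ^ (B + 1) + 1 ≤ n ^ (2 * Nat.sqrt n) := by
      rw [pow_zero] at a5; omega
    have s1 : (Nat.sqrt n : ℝ) ≤ √n := by
      rw [Real.le_sqrt (by positivity) (by positivity)]; exact_mod_cast Nat.sqrt_le' n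
    calc _ ≤ ((n ^ (2 * Nat.sqrt n) : ℕ) : ℝ) := by exact_mod_cast a7
      _ = (n:ℝ) ^ ((2 * Nat.sqrt n : ℕ) : ℝ) := by rw [Real.rpow_natCast]; push_cast; rfl
      _ ≤ _ := Real.rpow_le_rpow_of_exponent_le (by exact_mod_cast (by omega : 1 ≤ n))
          (by push_cast; linarith)

end Vale.Agent.P346
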